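import Vale.Agent.P307M.Api0

/-! Downward closure and direct sums inside an ambient module. -/

open Cardinal

universe u

namespace Vale.Agent.P307M

variable {R : Type u} [Ring R] {K : ModAEC R} {W : Type u} [AddCommGroup W] [Module R W]

theorem exists_str_ls {l n : Cardinal.{u}} (hl : K.LSBound l) (hn : l ≤ n) {N : Submodule R W}
    (hN : K.Mem N) (t : Set W) (ht : t ⊆ N) (htn : #t ≤ n) :
    ∃ A : Submodule R W, Str K A N ∧ t ⊆ A ∧ #A ≤ n := by
  have hinf : ℵ₀ ≤ n := (le_trans (self_le_add_left _ _) hl.1).trans hn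
  obtain ⟨A, hA, hs, hc⟩ := hl.2 N hN (N.subtype ⁻¹' t)
  refine ⟨A.map N.subtype, ⟨Submodule.map_subtype_le _ _, ?_⟩, fun x hx => ?_, ?_⟩
  · rw [Submodule.comap_map_eq_of_injective N.injective_subtype]
    exact hA
  · exact ⟨⟨x, ht hx⟩, hs hx, rfl⟩
  · rw [← (Submodule.equivMapOfInjective N.subtype N.injective_subtype A).toEquiv.cardinal_eq]
    refine hc.trans (Cardinal.add_le_of_le hinf ?_ hn)
    exact (Cardinal.mk_preimage_of_injective _ _ N.injective_subtype).trans htn

/-- closing under a set-valued operation in `ω` steps -/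
theorem exists_omega_chain {l n : Cardinal.{u}} (hl : K.LSBound l) (hn : l ≤ n)
    {N : Submodule R W} (hN : K.Mem N) (g : Submodule R W → Set W)
    (hg : ∀ A : Submodule R W, Str K A N → #A ≤ n → g A ⊆ N ∧ #(g A) ≤ n)
    (s : Set W) (hs : s ⊆ N) (hsn : #s ≤ n) :
    ∃ A : ℕ → Submodule R W, Monotone A ∧ s ⊆ A 0 ∧
      ∀ i, Str K (A i) N ∧ #(A i) ≤ n ∧ g (A i) ⊆ A (i + 1) := by
  have hinf : ℵ₀ ≤ n := (le_trans (self_le_add_left _ _) hl.1).trans hn
  have step : ∀ A : {A : Submodule R W // Str K A N ∧ #A ≤ n},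
      ∃ B : {A : Submodule R W // Str K A N ∧ #A ≤ n}, A.1 ≤ B.1 ∧ g A.1 ⊆ B.1 := by
    rintro ⟨A, hA, hAn⟩
    obtain ⟨h1, h2⟩ := hg A hA hAn
    obtain ⟨B, hB, hsub, hBn⟩ := exists_str_ls hl hn hN ((A : Set W) ∪ g A)
      (Set.union_subset hA.1 h1)
      ((Cardinal.mk_union_le _ _).trans (Cardinal.add_le_of_le hinf hAn h2))
    exact ⟨⟨B, hB, hBn⟩, fun x hx => hsub (Or.inl hx), fun x hx => hsub (Or.inr hx)⟩
  choose f hf1 hf2 using step
  obtain ⟨A0, hA0, hs0, hn0⟩ := exists_str_ls hl hn hN s hs hsn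
  refine ⟨fun i => (f^[i] ⟨A0, hA0, hn0⟩).1, monotone_nat_of_le_succ fun i => ?_, hs0,
    fun i => ⟨(f^[i] ⟨A0, hA0, hn0⟩).2.1, (f^[i] ⟨A0, hA0, hn0⟩).2.2, ?_⟩⟩
  · simp only [Function.iterate_succ_apply']
    exact hf1 _
  · simp only [Function.iterate_succ_apply']
    exact hf2 _

variable {P : Type u} [AddCommGroup P] [Module R P]

/-- `finsuppLEquivDirectSum` -/
theorem mem_finsupp (hs : K.SumClosed) (hP : K.Mem P) (X : Type u) [Nonempty X] :
    K.Mem (X →₀ P) := by
  classical
  exact K.mem_iso _ _ (finsuppLEquivDirectSum R P X).symm (hs X (fun _ => P) fun _ => hP)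

/-- a direct sum over `ULift Bool` or `Option PUnit` (`DirectSum.lequivProdDirectSum`); a
convenient family: the two coordinate submodules `fun b => cond b (range inl) (range inr)` of
`M × N`, all of type `Submodule R (M × N)`, which form an internal direct sum -/
theorem mem_prod (hs : K.SumClosed) {M N : Type u} [AddCommGroup M] [Module R M]
    [AddCommGroup N] [Module R N] (hM : K.Mem M) (hN : K.Mem N) : K.Mem (M × N) := by
  classical
  let A : ULift.{u} Bool → Submodule R (M × N) := fun b =>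
    cond b.down (LinearMap.range (LinearMap.inl R M N)) (LinearMap.range (LinearMap.inr R M N))
  have hA : ∀ b, K.Mem (A b) := by
    rintro ⟨b⟩
    cases b
    · exact K.mem_iso _ _ (LinearEquiv.ofInjective _ LinearMap.inr_injective) hN
    · exact K.mem_iso _ _ (LinearEquiv.ofInjective _ LinearMap.inl_injective) hM
  have hI : DirectSum.IsInternal A := by
    rw [DirectSum.isInternal_submodule_iff_isCompl A (i := ⟨true⟩) (j := ⟨false⟩) (by simp)]
    · exact LinearMap.isCompl_range_inl_inr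
    · ext ⟨b⟩
      cases b <;> simp
  exact K.mem_iso _ _ (LinearEquiv.ofBijective (DirectSum.coeLinearMap A) hI)
    (hs (ULift.{u} Bool) (fun b => A b) hA)

end Vale.Agent.P307M
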