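import Vale.Agent.P307M.Ord

/-! The class axioms inside an ambient module. -/

open Cardinal

universe u

namespace Vale.Agent.P307M

variable {R : Type u} [Ring R] {K : ModAEC R} {W : Type u} [AddCommGroup W] [Module R W]

theorem Str.le {A B : Submodule R W} (h : Str K A B) : A ≤ B := h.1

/-- `Submodule.comapSubtypeEquivOfLe` -/
theorem Str.mem_left {A B : Submodule R W} (h : Str K A B) : K.Mem A :=
  K.mem_iso _ _ (Submodule.comapSubtypeEquivOfLe h.1) (K.mem_of_strong_left _ _ h.2)

theorem Str.mem_right {A B : Submodule R W} (h : Str K A B) : K.Mem B :=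
  K.mem_of_strong_right _ _ h.2

theorem str_refl {A : Submodule R W} (h : K.Mem A) : Str K A A := by
  refine ⟨le_rfl, ?_⟩
  rw [Submodule.comap_subtype_self]
  exact K.strong_refl _ h

theorem api0_strong_iff {M N : Type u} [AddCommGroup M] [Module R M] [AddCommGroup N]
    [Module R N] (e : M ≃ₗ[R] N) (A : Submodule R M) (B : Submodule R N)
    (h : ∀ x, e x ∈ B ↔ x ∈ A) : K.Strong N B ↔ K.Strong M A := by
  constructor
  · intro hB
    have h1 := K.strong_iso _ _ e.symm B hB
    have h2 : B.map e.symm.toLinearMap = A := by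
      ext x
      constructor
      · rintro ⟨y, hy, rfl⟩
        apply (h _).1
        simpa using hy
      · intro hx
        exact ⟨e x, (h x).2 hx, by simp⟩
    rwa [h2] at h1
  · intro hA
    have h1 := K.strong_iso _ _ e A hA
    have h2 : A.map e.toLinearMap = B := by
      ext y
      constructor
      · rintro ⟨x, hx, rfl⟩
        exact (h x).2 hx
      · intro hy
        refine ⟨e.symm y, (h _).1 (by simpa using hy), by simp⟩
    rwa [h2] at h1

/-- transport along an injective linear map: `Submodule.equivMapOfInjective` and `strong_iso`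
in both directions -/
theorem str_map_iff {W' : Type u} [AddCommGroup W'] [Module R W'] (f : W →ₗ[R] W')
    (hf : Function.Injective f) (A B : Submodule R W) :
    Str K (A.map f) (B.map f) ↔ Str K A B := by
  unfold Str
  rw [Submodule.map_le_map_iff_of_injective hf]
  refine and_congr_right fun _ => ?_
  refine api0_strong_iff (Submodule.equivMapOfInjective f hf B) _ _ fun x => ?_
  rw [Submodule.mem_comap, Submodule.mem_comap, Submodule.subtype_apply, Submodule.subtype_apply,
    Submodule.coe_equivMapOfInjective_apply]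
  constructor
  · rintro ⟨y, hy, hyx⟩
    rw [← hf hyx]
    exact hy
  · intro hx
    exact ⟨x, hx, rfl⟩

theorem str_top_iff (A : Submodule R W) : Str K A ⊤ ↔ K.Strong W A := by
  unfold Str
  rw [and_iff_right le_top]
  exact (api0_strong_iff (Submodule.topEquiv (R := R) (M := W)) _ _ fun x => Iff.rfl).symm

theorem mem_top_iff : K.Mem (⊤ : Submodule R W) ↔ K.Mem W :=
  ⟨K.mem_iso _ _ Submodule.topEquiv, K.mem_iso _ _ Submodule.topEquiv.symm⟩

theorem api0_comap_iff {A B D : Submodule R W} (hA : A ≤ D) (hB : B ≤ D) :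
    Str K (A.comap D.subtype) (B.comap D.subtype) ↔ Str K A B := by
  rw [← str_map_iff D.subtype D.injective_subtype, Submodule.map_comap_subtype,
    Submodule.map_comap_subtype, inf_eq_right.2 hA, inf_eq_right.2 hB]

/-- work in the ambient module `D` with `A.comap D.subtype`, `B.comap D.subtype`
(`str_map_iff` with `D.subtype`, `Submodule.map_comap_subtype`) -/
theorem Str.trans {A B D : Submodule R W} (h1 : Str K A B) (h2 : Str K B D) : Str K A D := by
  have h3 := (api0_comap_iff (K := K) (h1.1.trans h2.1) h2.1).2 h1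
  exact ⟨h1.1.trans h2.1, K.strong_trans _ _ _ h3.1 h3.2 h2.2⟩

theorem Str.coh {A B D : Submodule R W} (h1 : Str K A D) (h2 : Str K B D) (hAB : A ≤ B) :
    Str K A B := by
  refine (api0_comap_iff (K := K) h1.1 h2.1).1 ⟨Submodule.comap_mono hAB, ?_⟩
  exact K.coherence _ _ _ (Submodule.comap_mono hAB) h1.2 h2.2

theorem str_chain_union {ι : Type u} [LinearOrder ι] [WellFoundedLT ι] [Nonempty ι]
    (A : ι → Submodule R W) (h : ∀ i j, i ≤ j → Str K (A i) (A j)) :
    ∀ i, Str K (A i) (⨆ i, A i) := by
  have hA : Monotone A := fun i j hij => (h i j hij).1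
  have key := K.chain_union (⨆ i, A i : Submodule R W) ι
    (fun i => (A i).comap (⨆ i, A i).subtype)
    (fun i j hij => (api0_comap_iff (K := K) (le_iSup A i) (le_iSup A j)).2 (h i j hij))
    (fun x => (Submodule.mem_iSup_of_directed A hA.directed_le).1 x.2)
  exact fun i => ⟨le_iSup A i, key.2 i⟩

theorem str_chain_smooth {ι : Type u} [LinearOrder ι] [WellFoundedLT ι] [Nonempty ι]
    (A : ι → Submodule R W) (hA : Monotone A) {N : Submodule R W} (h : ∀ i, Str K (A i) N) :
    Str K (⨆ i, A i) N := by
  refine ⟨iSup_le fun i => (h i).1, ?_⟩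
  refine K.chain_smooth N ι (fun i => (A i).comap N.subtype) _ (fun i j hij => ?_)
    (fun x => Submodule.mem_iSup_of_directed A hA.directed_le) (fun i => (h i).2)
  exact (api0_comap_iff (K := K) (h i).1 (h j).1).2 ((h i).coh (h j) (hA hij))

/-- use `ULift.{u} ℕ` as index type -/
theorem str_nat_smooth (A : ℕ → Submodule R W) (hA : Monotone A) {N : Submodule R W}
    (h : ∀ i, Str K (A i) N) : Str K (⨆ i, A i) N := by
  have : WellFoundedLT (ULift.{u} ℕ) :=
    ⟨InvImage.wf (fun x : ULift.{u} ℕ => x.down) wellFounded_lt⟩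
  have key := str_chain_smooth (K := K) (ι := ULift.{u} ℕ) (fun i => A i.down)
    (fun i j hij => hA hij) (fun i => h i.down)
  have he : (⨆ i : ULift.{u} ℕ, A i.down) = ⨆ i, A i :=
    le_antisymm (iSup_le fun i => le_iSup A i.down)
      (iSup_le fun i => le_iSup (fun j : ULift.{u} ℕ => A j.down) (ULift.up i))
  rwa [he] at key

variable {P : Type u} [AddCommGroup P] [Module R P]

end Vale.Agent.P307M
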