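import Vale.Agent.P307M.Defs

/-! Proof-side definitions for the categoricity transfer. -/

open Cardinal

universe u

namespace Vale.Agent.P307M

variable {R : Type u} [Ring R]

/-- `A` is a direct summand of `B` (both inside an ambient module). -/
def Spl {W : Type u} [AddCommGroup W] [Module R W] (A B : Submodule R W) : Prop :=
  A ≤ B ∧ ∃ C : Submodule R W, Disjoint A C ∧ A ⊔ C = B

/-- `M` is a retract of `N`. -/
def Ret (R : Type u) [Ring R] (M N : Type u) [AddCommGroup M] [Module R M] [AddCommGroup N]
    [Module R N] : Prop :=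
  ∃ (i : M →ₗ[R] N) (p : N →ₗ[R] M), ∀ x, p (i x) = x

/-- `M` is a direct summand of a direct sum of copies of `P`. -/
def InAdd (R : Type u) [Ring R] (P M : Type u) [AddCommGroup P] [Module R P] [AddCommGroup M]
    [Module R M] : Prop :=
  ∃ X : Type u, Ret R M (X →₀ P)

/-- `A ≤_K B` for two submodules of an ambient module. -/
def Str (K : ModAEC R) {W : Type u} [AddCommGroup W] [Module R W] (A B : Submodule R W) : Prop :=
  A ≤ B ∧ K.Strong B (A.comap B.subtype)

/-- The standing hypotheses, with a fixed small nonzero model `P`. -/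
structure Ctx (K : ModAEC R) (l k : Cardinal.{u}) (P : Type u) [AddCommGroup P] [Module R P] :
    Prop where
  ls : K.LSBound l
  sums : K.SumClosed
  memP : K.Mem P
  nt : Nontrivial P
  cardP : #P ≤ l
  cat : K.Categorical k
  big : Order.succ (Order.succ (Order.succ (2 ^ l))) ≤ k

/-- First half of a closed pair. -/
def Good0 (K : ModAEC R) (l : Cardinal.{u}) {W : Type u} [AddCommGroup W] [Module R W]
    (M N A : Submodule R W) : Prop :=
  Str K A N ∧ Str K (M ⊓ A) M ∧ 2 ^ l < #(M ⊓ A : Submodule R W)

/-- Closed pairs `(M ⊓ A, A)`. -/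
def Closed (K : ModAEC R) (l : Cardinal.{u}) {W : Type u} [AddCommGroup W] [Module R W]
    (M N A : Submodule R W) : Prop :=
  Good0 K l M N A ∧ ∀ B : Submodule R W, Str K B M → M ⊓ A ≤ B → #B < #N → Spl (B ⊔ A) N

/-- The situation of the hard induction step. -/
structure Sit (K : ModAEC R) (l k : Cardinal.{u}) (P : Type u) [AddCommGroup P] [Module R P]
    {W : Type u} [AddCommGroup W] [Module R W] (M N : Submodule R W) : Prop where
  ctx : Ctx K l k P
  str : Str K M N
  card : #M = #N
  big : Order.succ (Order.succ (2 ^ l)) < #N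
  add : InAdd R P N
  small : ∀ A : Submodule R W, Str K A N → 2 ^ l < #A → #A < #N → Spl A N

theorem Ctx.inf {K : ModAEC R} {l k : Cardinal.{u}} {P : Type u} [AddCommGroup P] [Module R P]
    (h : Ctx K l k P) : ℵ₀ ≤ l := le_trans (self_le_add_left _ _) h.ls.1

theorem Ctx.cardR {K : ModAEC R} {l k : Cardinal.{u}} {P : Type u} [AddCommGroup P] [Module R P]
    (h : Ctx K l k P) : #R ≤ l := le_trans (self_le_add_right _ _) h.ls.1

theorem Ctx.lt_big {K : ModAEC R} {l k : Cardinal.{u}} {P : Type u} [AddCommGroup P] [Module R P]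
    (h : Ctx K l k P) : 2 ^ l < k :=
  lt_of_lt_of_le ((Order.lt_succ _).trans ((Order.lt_succ _).trans (Order.lt_succ _))) h.big

end Vale.Agent.P307M
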