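import Vale.Agent.P307M.Free

/-! Closed pairs: unions. -/

open Cardinal

universe u

namespace Vale.Agent.P307M

variable {R : Type u} [Ring R] {K : ModAEC R} {l k : Cardinal.{u}} {P : Type u} [AddCommGroup P]
  [Module R P] {W : Type u} [AddCommGroup W] [Module R W] {M N : Submodule R W}

theorem good0_iSup {ι : Type u} [LinearOrder ι] [WellFoundedLT ι] [Nonempty ι]
    (A : ι → Submodule R W) (hA : Monotone A) (h : ∀ i, Good0 K l M N (A i)) :
    Good0 K l M N (⨆ i, A i) := by
  refine ⟨str_chain_smooth A hA (fun i => (h i).1), ?_, ?_⟩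
  · rw [inf_iSup_mono M A hA]
    exact str_chain_smooth (fun i => M ⊓ A i) (fun i j hij => inf_le_inf_left M (hA hij))
      (fun i => (h i).2.1)
  · obtain ⟨i⟩ := ‹Nonempty ι›
    exact (h i).2.2.trans_le (card_mono (inf_le_inf_left M (le_iSup A i)))

theorem Sit.spl_iSup (hS : Sit K l k P M N) {ι : Type u} [LinearOrder ι] [WellFoundedLT ι]
    [Nonempty ι] (A : ι → Submodule R W) (hA : Monotone A) (h : ∀ i, Spl (A i) N)
    (hbig : ∀ i, 2 ^ l < #(A i)) (hc : #(⨆ i, A i : Submodule R W) < #N) :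
    Spl (⨆ i, A i) N := by
  obtain ⟨i⟩ := ‹Nonempty ι›
  exact hS.small _ (str_chain_smooth A hA (fun i => hS.ctx.str_of_spl (h i) hS.add (hbig i)))
    ((hbig i).trans_le (card_mono (le_iSup A i))) hc

theorem Sit.inf (hS : Sit K l k P M N) : ℵ₀ ≤ #N :=
  hS.ctx.inf.trans ((Cardinal.cantor l).trans
    ((Order.lt_succ _).trans ((Order.lt_succ _).trans hS.big))).le

theorem Sit.closed_iSup (hS : Sit K l k P M N) {ι : Type u} [LinearOrder ι] [WellFoundedLT ι]
    [Nonempty ι] (A : ι → Submodule R W) (hA : Monotone A) (h : ∀ i, Closed K l M N (A i))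
    (hc : #(⨆ i, A i : Submodule R W) < #N) : Closed K l M N (⨆ i, A i) := by
  refine ⟨good0_iSup A hA (fun i => (h i).1), ?_⟩
  intro B hB hle hBN
  have heq : B ⊔ ⨆ i, A i = ⨆ i, B ⊔ A i := sup_iSup
  rw [heq]
  refine hS.spl_iSup (fun i => B ⊔ A i) (fun i j hij => sup_le_sup_left (hA hij) B)
    (fun i => (h i).2 B hB ((inf_le_inf_left M (le_iSup A i)).trans hle) hBN)
    (fun i => (h i).1.2.2.trans_le (card_mono (inf_le_right.trans le_sup_right))) ?_
  rw [← heq]
  exact card_sup_lt _ _ hS.inf hBN hc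

end Vale.Agent.P307M
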