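import Vale.Agent.P307M.Cl0

/-! Closed pairs: small witnesses and small hulls. -/

open Cardinal

universe u

namespace Vale.Agent.P307M

variable {R : Type u} [Ring R] {K : ModAEC R} {l k : Cardinal.{u}} {P : Type u} [AddCommGroup P]
  [Module R P] {W : Type u} [AddCommGroup W] [Module R W] {M N : Submodule R W}

/-- a model is the union of a chain of smaller strong submodels above a given small submodule -/
theorem exists_str_filtration (hl : K.LSBound l) {B A : Submodule R W} (hB : K.Mem B)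
    (hAB : A ≤ B) {n : Cardinal.{u}} (hn : l ≤ n) (hAn : #A ≤ n) (hnB : n < #B) :
    ∃ F : (#B).ord.ToType → Submodule R W, Monotone F ∧
      (∀ i, Str K (F i) B ∧ A ≤ F i ∧ #(F i) < #B) ∧ ⨆ i, F i = B := by
  have hinf : ℵ₀ ≤ n := (le_trans (self_le_add_left _ _) hl.1).trans hn
  obtain ⟨F, hF, hF2, hF3⟩ := rec_cover (fun B' => Str K B' B ∧ A ≤ B') B (B : Set W) subset_rfl
    hinf hnB le_rfl (by
      intro t ht htB
      obtain ⟨D, hD1, hD2, hD3⟩ := exists_str_ls hl (hn.trans (le_max_right (#t) n)) hB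
        (t ∪ (A : Set W)) (Set.union_subset ht hAB)
        ((Cardinal.mk_union_le _ _).trans (Cardinal.add_le_of_le (hinf.trans (le_max_right _ _))
          (le_max_left _ _) (hAn.trans (le_max_right _ _))))
      exact ⟨D, ⟨hD1, fun x hx => hD2 (Or.inr hx)⟩, fun x hx => hD2 (Or.inl hx), hD1.le, hD3⟩)
  exact ⟨F, hF, fun i => ⟨(hF2 i).1.1, (hF2 i).1.2, (hF2 i).2.2⟩,
    le_antisymm (iSup_le fun i => (hF2 i).2.1) hF3⟩

theorem Sit.closed_of_small (hS : Sit K l k P M N) {A : Submodule R W} (hA : Good0 K l M N A)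
    {n : Cardinal.{u}} (hn : 2 ^ l < n) (hnN : n < #N) (hAn : #A ≤ n)
    (h : ∀ B : Submodule R W, Str K B M → M ⊓ A ≤ B → #B ≤ n → Spl (B ⊔ A) N) :
    Closed K l M N A := by
  refine ⟨hA, ?_⟩
  have hln : l ≤ n := ((Cardinal.cantor l).trans hn).le
  have key : ∀ c : Cardinal.{u}, ∀ B : Submodule R W, #B = c → Str K B M → M ⊓ A ≤ B →
      #B < #N → Spl (B ⊔ A) N := by
    intro c
    induction c using WellFoundedLT.induction with
    | ind c IH =>
      intro B hc hB hle hBN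
      by_cases hBn : #B ≤ n
      · exact h B hB hle hBn
      · obtain ⟨F, hF, hF2, hF3⟩ := exists_str_filtration hS.ctx.ls hB.mem_left hle hln
          ((card_mono inf_le_right).trans hAn) (not_le.1 hBn)
        have : Nonempty (#B).ord.ToType :=
          nonempty_ord_toType ((hS.ctx.inf.trans hln).trans (not_le.1 hBn).le)
        have heq : B ⊔ A = ⨆ i, F i ⊔ A := by
          rw [← iSup_sup, hF3]
        rw [heq]
        refine hS.spl_iSup (fun i => F i ⊔ A) (fun i j hij => sup_le_sup_right (hF hij) A)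
          (fun i => IH _ (hc ▸ (hF2 i).2.2) (F i) rfl ((hF2 i).1.trans hB) (hF2 i).2.1
            ((hF2 i).2.2.trans hBN))
          (fun i => hA.2.2.trans_le (card_mono (inf_le_right.trans le_sup_right))) ?_
        rw [← heq]
        exact card_sup_lt _ _ hS.inf hBN (hAn.trans_lt hnN)
  intro B hB hle hBN
  exact key _ B rfl hB hle hBN

theorem exists_subset_card {M : Submodule R W} {c : Cardinal.{u}} (hc : c ≤ #M) :
    ∃ t : Set W, t ⊆ M ∧ #t = c := Cardinal.le_mk_iff_exists_subset.1 hc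

theorem card_le_of_subset {t : Set W} {A : Submodule R W} (h : t ⊆ A) : #t ≤ #A :=
  Cardinal.mk_le_mk_of_subset h

theorem Sit.good0_ls (hS : Sit K l k P M N) {n : Cardinal.{u}} (hn : 2 ^ l < n) (s : Set W)
    (hs : s ⊆ N) (hsn : #s ≤ n) :
    ∃ A : Submodule R W, Good0 K l M N A ∧ s ⊆ A ∧ #A ≤ n := by
  have hln : l ≤ n := ((Cardinal.cantor l).trans hn).le
  have hinf : ℵ₀ ≤ n := hS.ctx.inf.trans hln
  obtain ⟨t, htM, htc⟩ := exists_subset_card (M := M) (c := Order.succ (2 ^ l))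
    (by rw [hS.card]; exact ((Order.lt_succ _).trans hS.big).le)
  have htn : #t ≤ n := by rw [htc]; exact Order.succ_le_of_lt hn
  have hG : ∀ A : Submodule R W, ∃ G : Submodule R W, #A ≤ n →
      Str K G M ∧ M ⊓ A ≤ G ∧ #G ≤ n := by
    intro A
    by_cases hAn : #A ≤ n
    · obtain ⟨G, h1, h2, h3⟩ := exists_str_ls hS.ctx.ls hln hS.str.mem_left
        ((M ⊓ A : Submodule R W) : Set W) (inf_le_left : M ⊓ A ≤ M)
        ((card_mono inf_le_right).trans hAn)
      exact ⟨G, fun _ => ⟨h1, h2, h3⟩⟩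
    · exact ⟨⊥, fun h => absurd h hAn⟩
  choose G hG using hG
  obtain ⟨A, hA, hA0, hA2⟩ := exists_omega_chain hS.ctx.ls hln hS.str.mem_right
    (fun A => (G A : Set W))
    (fun A _ hAn => ⟨((hG A hAn).1.le.trans hS.str.le : G A ≤ N), (hG A hAn).2.2⟩)
    (s ∪ t) (Set.union_subset hs (htM.trans hS.str.le))
    ((Cardinal.mk_union_le _ _).trans (Cardinal.add_le_of_le hinf hsn htn))
  have h1 : ∀ i, G (A i) ≤ M ⊓ A (i + 1) := fun i =>
    le_inf (hG _ (hA2 i).2.1).1.le (hA2 i).2.2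
  have h2 : ∀ i, M ⊓ A i ≤ G (A i) := fun i => (hG _ (hA2 i).2.1).2.1
  have hGm : Monotone (fun i => G (A i)) :=
    monotone_nat_of_le_succ (fun i => (h1 i).trans (h2 (i + 1)))
  have heq : M ⊓ ⨆ i, A i = ⨆ i, G (A i) := by
    apply le_antisymm
    · rintro x ⟨hxM, hxA⟩
      obtain ⟨i, hi⟩ := (Submodule.mem_iSup_of_directed A hA.directed_le).1 hxA
      exact (le_iSup (fun i => G (A i)) i : G (A i) ≤ _) (h2 i ⟨hxM, hi⟩)
    · exact iSup_le fun i => (h1 i).trans (inf_le_inf_left M (le_iSup A (i + 1)))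
  have h0 : A 0 ≤ ⨆ i, A i := le_iSup A 0
  refine ⟨⨆ i, A i, ⟨str_nat_smooth A hA (fun i => (hA2 i).1), ?_, ?_⟩,
    fun x hx => h0 (hA0 (Or.inl hx)), card_iSup_nat_le A hA hinf (fun i => (hA2 i).2.1)⟩
  · rw [heq]
    exact str_nat_smooth _ hGm (fun i => (hG _ (hA2 i).2.1).1)
  · refine (Order.lt_succ _).trans_le ?_
    rw [← htc]
    exact card_le_of_subset (fun x hx => ⟨htM hx, h0 (hA0 (Or.inr hx))⟩)

end Vale.Agent.P307M
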