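import Vale.Agent.P307M.Cl1

/-! Existence of small closed pairs. -/

open Cardinal

universe u

namespace Vale.Agent.P307M

variable {R : Type u} [Ring R] {K : ModAEC R} {l k : Cardinal.{u}} {P : Type u} [AddCommGroup P]
  [Module R P] {W : Type u} [AddCommGroup W] [Module R W] {M N : Submodule R W}

theorem cl2_card_image {N' : Submodule R W} (r : N' →ₗ[R] W) (A : Submodule R W) :
    #(r '' {x : N' | (x : W) ∈ A}) ≤ #A := by
  refine Cardinal.mk_image_le.trans ?_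
  refine Cardinal.mk_le_of_injective
    (f := fun x : {x : N' | (x : W) ∈ A} => (⟨(x.1 : W), x.2⟩ : A)) ?_
  intro x y hxy
  have h1 : (x.1 : W) = (y.1 : W) := congrArg (fun z : A => (z : W)) hxy
  exact Subtype.ext (Subtype.ext h1)

theorem Sit.closed_exists_lt (hS : Sit K l k P M N) {n : Cardinal.{u}} (hn : 2 ^ l < n)
    (hnN : Order.succ n < #N) (s : Set W) (hs : s ⊆ N) (hsn : #s ≤ n) :
    ∃ A : Submodule R W, Closed K l M N A ∧ s ⊆ A ∧ #A ≤ n := by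
  by_contra hcon
  have hninf : ℵ₀ ≤ n := hS.ctx.inf.trans ((Cardinal.cantor l).trans hn).le
  have hnN' : n < #N := (Order.lt_succ n).trans hnN
  obtain ⟨A0, hA0⟩ := hS.good0_ls hn s hs hsn
  obtain ⟨Q, hQg, -, hQm, hQb⟩ := rec_long (R := R) (W := W) hninf
    (fun A => Good0 K l M N A ∧ s ⊆ A ∧ #A ≤ n) (fun A B => A ≤ B)
    (fun A Q => ∃ B : Submodule R W, Str K B M ∧ M ⊓ A ≤ B ∧ B ≤ Q ∧ ¬ Spl (B ⊔ A) N) A0 hA0
    (fun _ _ h => h) (fun _ _ => le_rfl) (fun _ _ _ h1 h2 => h1.trans h2)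
    (by
      rintro A ⟨hA, hsA, hAn⟩
      have hnc : ¬ Closed K l M N A := fun hc => hcon ⟨A, hc, hsA, hAn⟩
      have hex : ∃ B : Submodule R W, Str K B M ∧ M ⊓ A ≤ B ∧ #B ≤ n ∧ ¬ Spl (B ⊔ A) N := by
        by_contra hne
        refine hnc (hS.closed_of_small hA hn hnN' hAn ?_)
        intro B h1 h2 h3
        by_contra h4
        exact hne ⟨B, h1, h2, h3, h4⟩
      obtain ⟨B, h1, h2, h3, h4⟩ := hex
      obtain ⟨Q, hQ, hQs, hQn⟩ := hS.good0_ls hn ((B ⊔ A : Submodule R W) : Set W)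
        (show ((B ⊔ A : Submodule R W) : Set W) ⊆ N from
          (sup_le (h1.le.trans hS.str.le) hA.1.le : B ⊔ A ≤ N))
        (card_sup_le B A hninf h3 hAn)
      have hle : B ⊔ A ≤ Q := hQs
      exact ⟨Q, ⟨hQ, hsA.trans (le_sup_right.trans hle : A ≤ Q), hQn⟩, le_sup_right.trans hle,
        B, h1, h2, le_sup_left.trans hle, h4⟩)
    (by
      intro ι _ _ _ A hι hA hm
      have hmono : Monotone A := fun i j hij => hm i j hij
      refine ⟨⟨good0_iSup A hmono (fun i => (hA i).1), ?_,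
        card_iSup_le A hmono hninf hι (fun i => (hA i).2.2)⟩, fun i => le_iSup A i⟩
      obtain ⟨i⟩ := ‹Nonempty ι›
      exact (hA i).2.1.trans (le_iSup A i : A i ≤ ⨆ i, A i))
  have hmono : Monotone Q := fun i j hij => hQm i j hij
  have hsinf : ℵ₀ ≤ Order.succ n := hninf.trans (Order.le_succ n)
  have : Nonempty (Order.succ n).ord.ToType := nonempty_ord_toType hsinf
  have hV : Good0 K l M N (⨆ i, Q i) := good0_iSup Q hmono (fun i => (hQg i).1)
  have hVc : #(⨆ i, Q i : Submodule R W) ≤ Order.succ n :=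
    card_iSup_le Q hmono hsinf (Cardinal.mk_ord_toType _).le
      (fun i => (hQg i).2.2.trans (Order.le_succ n))
  have hMV : Spl (M ⊓ ⨆ i, Q i) N :=
    hS.small _ (hV.2.1.trans hS.str) hV.2.2
      (((card_mono inf_le_right).trans hVc).trans_lt hnN)
  obtain ⟨-, C, hd, hsup⟩ := hMV
  obtain ⟨r, hr1, hr2, hr3⟩ := exists_proj hd hsup
  have hf : ∀ j, ∃ i, r '' {x : N | (x : W) ∈ Q j} ⊆ Q i := by
    intro j
    refine subset_member hninf Q hmono _ ((cl2_card_image r (Q j)).trans (hQg j).2.2) ?_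
    rintro _ ⟨x, -, rfl⟩
    exact (hr1 x).2
  choose f hf using hf
  obtain ⟨a, ha, hfa⟩ := closure_point hninf f
  obtain ⟨⟨hU, -, hUn⟩, hUa, B, hB1, hB2, hB3, hB4⟩ := hQb a ha
  set U : Submodule R W := ⨆ j : Set.Iio a, Q j with hUdef
  have hUN : U ≤ N := hU.1.le
  have hUV : U ≤ ⨆ i, Q i := hUa.trans (le_iSup Q a)
  have hinv : ∀ x : N, (x : W) ∈ U → r x ∈ U := by
    intro x hx
    obtain ⟨j0, hj0⟩ := ha
    have : Nonempty (Set.Iio a) := ⟨⟨j0, hj0⟩⟩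
    obtain ⟨j, hj⟩ := (mem_iSup_mono (fun j : Set.Iio a => Q j)
      (fun i j hij => hmono hij) x).1 hx
    have h1 : r x ∈ Q (f j) := hf j ⟨x, hj, rfl⟩
    exact (le_iSup (fun j : Set.Iio a => Q j) ⟨f j, hfa j j.2⟩ : Q (f j) ≤ U) h1
  have hdec : ∀ x ∈ U, ∃ y ∈ M ⊓ U, ∃ z ∈ C ⊓ U, y + z = x := by
    intro x hx
    have h1 := hinv ⟨x, hUN hx⟩ hx
    exact ⟨r ⟨x, hUN hx⟩, ⟨(hr1 _).1, h1⟩, x - r ⟨x, hUN hx⟩,
      ⟨hr2 ⟨x, hUN hx⟩, U.sub_mem hx h1⟩, by abel⟩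
  have hsupU : (M ⊓ U) ⊔ (C ⊓ U) = U := by
    refine le_antisymm (sup_le inf_le_right inf_le_right) ?_
    intro x hx
    exact Submodule.mem_sup.2 (hdec x hx)
  have hdU : Disjoint (M ⊓ U) (C ⊓ U) :=
    hd.mono (inf_le_inf_left M hUV) inf_le_left
  have hsU : Spl U N :=
    hS.small U hU.1 (hU.2.2.trans_le (card_mono inf_le_right)) (hUn.trans_lt hnN')
  have hsB : Spl B N :=
    hS.small B (hB1.trans hS.str) (hU.2.2.trans_le (card_mono hB2))
      (((card_mono hB3).trans (hQg a).2.2).trans_lt hnN')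
  have hBV : B ≤ M ⊓ ⨆ i, Q i := le_inf hB1.le (hB3.trans (le_iSup Q a))
  have hfin : Spl (B ⊔ (C ⊓ U)) N :=
    spl_sup hd hsup hBV inf_le_left hsB (spl_trans (spl_of_compl hdU hsupU) hsU)
  have heq : B ⊔ U = B ⊔ (C ⊓ U) := by
    refine le_antisymm (sup_le le_sup_left ?_) (sup_le_sup_left inf_le_right B)
    calc U = (M ⊓ U) ⊔ (C ⊓ U) := hsupU.symm
      _ ≤ B ⊔ (C ⊓ U) := sup_le_sup_right hB2 _
  exact hB4 (heq ▸ hfin)

end Vale.Agent.P307M
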