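import Vale.Agent.P307M.Cl2

/-! The hard induction step. -/

open Cardinal

universe u

namespace Vale.Agent.P307M

variable {R : Type u} [Ring R] {K : ModAEC R} {l k : Cardinal.{u}} {P : Type u} [AddCommGroup P]
  [Module R P] {W : Type u} [AddCommGroup W] [Module R W] {M N : Submodule R W}

theorem iSup_Iio_eq_bot {ι : Type u} [LinearOrder ι] (A : ι → Submodule R W) {i : ι}
    (h : ¬ ∃ j, j < i) : (⨆ j : Set.Iio i, A j) = ⊥ :=
  iSup_eq_bot.2 (fun j => absurd ⟨j.1, j.2⟩ h)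

theorem iSup_Iio_le {ι : Type u} [LinearOrder ι] (A : ι → Submodule R W) (hA : Monotone A)
    (i : ι) : (⨆ j : Set.Iio i, A j) ≤ A i :=
  iSup_le (fun j => hA (le_of_lt j.2))

theorem Sit.closed_exists (hS : Sit K l k P M N) {n : Cardinal.{u}} (hn : 2 ^ l < n)
    (hnN : n < #N) (s : Set W) (hs : s ⊆ N) (hsn : #s ≤ n) :
    ∃ A : Submodule R W, Closed K l M N A ∧ s ⊆ A ∧ #A ≤ n := by
  by_cases hlt : Order.succ n < #N
  · exact hS.closed_exists_lt hn hlt s hs hsn
  have hm : Order.succ (2 ^ l) < n :=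
    Order.succ_lt_succ_iff.1 (hS.big.trans_le (not_lt.1 hlt))
  have hminf : ℵ₀ ≤ Order.succ (2 ^ l) :=
    hS.ctx.inf.trans ((Cardinal.cantor l).trans (Order.lt_succ _)).le
  have hninf : ℵ₀ ≤ n := hminf.trans hm.le
  obtain ⟨A, hA, hA2, hA3⟩ := rec_cover (Closed K l M N) N s hs hminf hm hsn (by
    intro t ht htn
    obtain ⟨A, h1, h2, h3⟩ := hS.closed_exists_lt (n := max #t (Order.succ (2 ^ l)))
      ((Order.lt_succ _).trans_le (le_max_right _ _))
      ((Order.succ_le_of_lt (max_lt htn hm)).trans_lt hnN) t ht (le_max_left _ _)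
    exact ⟨A, h1, h2, h1.1.1.le, h3⟩)
  have : Nonempty n.ord.ToType := nonempty_ord_toType hninf
  have hc : #(⨆ i, A i : Submodule R W) ≤ n :=
    card_iSup_le A hA hninf (Cardinal.mk_ord_toType _).le (fun i => (hA2 i).2.2.le)
  exact ⟨⨆ i, A i, hS.closed_iSup A hA (fun i => (hA2 i).1) (hc.trans_lt hnN), hA3, hc⟩

theorem Sit.spl (hS : Sit K l k P M N) : Spl M N := by
  have hm : Order.succ (2 ^ l) < #N := (Order.lt_succ _).trans hS.big
  have hminf : ℵ₀ ≤ Order.succ (2 ^ l) :=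
    hS.ctx.inf.trans ((Cardinal.cantor l).trans (Order.lt_succ _)).le
  obtain ⟨A, hA, hA2, hA3⟩ := rec_cover (Closed K l M N) N (N : Set W) subset_rfl hminf hm le_rfl
    (by
      intro t ht htn
      obtain ⟨A, h1, h2, h3⟩ := hS.closed_exists (n := max #t (Order.succ (2 ^ l)))
        ((Order.lt_succ _).trans_le (le_max_right _ _)) (max_lt htn hm) t ht (le_max_left _ _)
      exact ⟨A, h1, h2, h1.1.1.le, h3⟩)
  have hsup : ⨆ i, A i = N := le_antisymm (iSup_le fun i => (hA2 i).2.1) hA3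
  have key := spl_filtration M A hA (by
    intro i
    have hBc : #(M ⊓ A i : Submodule R W) < #N :=
      (card_mono inf_le_right).trans_lt (hA2 i).2.2
    have hle := iSup_Iio_le A hA i
    refine spl_restrict (D := N) ?_ (sup_le inf_le_right hle) (hA2 i).2.1
    by_cases hp : ∃ j, j < i
    · obtain ⟨j0, hj0⟩ := hp
      have : Nonempty (Set.Iio i) := ⟨⟨j0, hj0⟩⟩
      have hU := hS.closed_iSup (fun j : Set.Iio i => A j) (fun a b hab => hA hab)
        (fun j => (hA2 j).1) ((card_mono hle).trans_lt (hA2 i).2.2)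
      exact hU.2 _ (hA2 i).1.1.2.1 (inf_le_inf_left M hle) hBc
    · rw [iSup_Iio_eq_bot A hp, sup_bot_eq]
      exact hS.small _ ((hA2 i).1.1.2.1.trans hS.str) (hA2 i).1.1.2.2 hBc)
  rwa [hsup, inf_eq_left.2 hS.str.le] at key

end Vale.Agent.P307M
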