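import Mathlib

/-!
Abstract elementary classes whose models are left `R`-modules.

The vocabulary is the usual one for `R`-modules (`0`, `+`, `-` and one unary function symbol for
each scalar), so substructures are submodules and isomorphisms are `R`-linear equivalences.
-/

open Cardinal DirectSum

universe u

namespace Vale.Agent.P307M

/-- An abstract elementary class (without the Löwenheim-Skolem axiom, see `LSBound`) whose models
are left `R`-modules. `Mem M` says that `M` is in the class; `Strong N A` says that the submodule
`A` of `N`, seen as a structure, satisfies `A ≤_K N`. -/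
structure ModAEC (R : Type u) [Ring R] : Type (u + 1) where
  /-- the class of models -/
  Mem : ∀ (M : Type u) [AddCommGroup M] [Module R M], Prop
  /-- the strong substructure relation -/
  Strong : ∀ (N : Type u) [AddCommGroup N] [Module R N], Submodule R N → Prop
  /-- the order is an order on the class: the smaller structure is a model -/
  mem_of_strong_left : ∀ (N : Type u) [AddCommGroup N] [Module R N] (A : Submodule R N),
    Strong N A → Mem A
  /-- the order is an order on the class: the larger structure is a model -/
  mem_of_strong_right : ∀ (N : Type u) [AddCommGroup N] [Module R N] (A : Submodule R N),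
    Strong N A → Mem N
  /-- the class is closed under isomorphism -/
  mem_iso : ∀ (M N : Type u) [AddCommGroup M] [Module R M] [AddCommGroup N] [Module R N],
    (M ≃ₗ[R] N) → Mem M → Mem N
  /-- the order is closed under isomorphism -/
  strong_iso : ∀ (M N : Type u) [AddCommGroup M] [Module R M] [AddCommGroup N] [Module R N]
    (e : M ≃ₗ[R] N) (A : Submodule R M), Strong M A → Strong N (A.map e.toLinearMap)
  /-- reflexivity -/
  strong_refl : ∀ (N : Type u) [AddCommGroup N] [Module R N], Mem N → Strong N ⊤
  /-- transitivity -/
  strong_trans : ∀ (N : Type u) [AddCommGroup N] [Module R N] (A B : Submodule R N), A ≤ B →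
    Strong B (A.comap B.subtype) → Strong N B → Strong N A
  /-- coherence -/
  coherence : ∀ (N : Type u) [AddCommGroup N] [Module R N] (A B : Submodule R N), A ≤ B →
    Strong N A → Strong N B → Strong B (A.comap B.subtype)
  /-- the union `U` of a nonempty well-ordered increasing chain is a model above every member -/
  chain_union : ∀ (U : Type u) [AddCommGroup U] [Module R U] (ι : Type u) [LinearOrder ι]
    [WellFoundedLT ι] [Nonempty ι] (A : ι → Submodule R U),
    (∀ i j, i ≤ j → A i ≤ A j ∧ Strong (A j) ((A i).comap (A j).subtype)) →
    (∀ x : U, ∃ i, x ∈ A i) → Mem U ∧ ∀ i, Strong U (A i)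
  /-- the union `B` of such a chain is below every common upper bound `N` of the chain -/
  chain_smooth : ∀ (N : Type u) [AddCommGroup N] [Module R N] (ι : Type u) [LinearOrder ι]
    [WellFoundedLT ι] [Nonempty ι] (A : ι → Submodule R N) (B : Submodule R N),
    (∀ i j, i ≤ j → A i ≤ A j ∧ Strong (A j) ((A i).comap (A j).subtype)) →
    (∀ x : N, x ∈ B ↔ ∃ i, x ∈ A i) → (∀ i, Strong N (A i)) → Strong N B

variable {R : Type u} [Ring R]

/-- The Löwenheim-Skolem axiom holds with the cardinal `l`; equivalently `LS(K) ≤ l`. -/
def ModAEC.LSBound (K : ModAEC R) (l : Cardinal.{u}) : Prop :=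
  #R + ℵ₀ ≤ l ∧
    ∀ (M : Type u) [AddCommGroup M] [Module R M], K.Mem M → ∀ s : Set M,
      ∃ A : Submodule R M, K.Strong M A ∧ s ⊆ A ∧ #A ≤ #s + l

/-- The class has a model of cardinality `k`, and any two such models are isomorphic. -/
def ModAEC.Categorical (K : ModAEC R) (k : Cardinal.{u}) : Prop :=
  (∃ (M : Type u) (_ : AddCommGroup M) (_ : Module R M), K.Mem M ∧ #M = k) ∧
    ∀ (M N : Type u) [AddCommGroup M] [Module R M] [AddCommGroup N] [Module R N],
      K.Mem M → K.Mem N → #M = k → #N = k → Nonempty (M ≃ₗ[R] N)

/-- The class of models is closed under direct sums of nonempty families. -/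
def ModAEC.SumClosed (K : ModAEC R) : Prop :=
  ∀ (ι : Type u) [Nonempty ι] (M : ι → Type u) [∀ i, AddCommGroup (M i)] [∀ i, Module R (M i)],
    (∀ i, K.Mem (M i)) → K.Mem (⨁ i, M i)

end Vale.Agent.P307M
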