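import Vale.Agent.P307M.Gen1

/-! Large members of `Add P` are direct sums of copies of `P` once every small nonzero summand
generates `P`.

Proof of `free_of_ret`. By `Ret.shrink`, `N` is a retract of `Y →₀ P`; by `equiv_of_ret_ret` it is
enough to show that `Y →₀ P` is a retract of `N`. Take `C` from `kaplansky`. For each `y` let
`t y : Submodule R (L →₀ P)` be the range of the embedding of `C y`, so `C y ≃ t y`; there are at
most `2 ^ #L` values (`#(L →₀ P) ≤ #L`). `T = {y | C y ≠ ⊥}` has `#T = #Y` (`gen_card`).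
`gen_fiber` gives an injection `j : Y × L → Y` into `T` with `t (j (y, l))` independent of `l`;
`gen_ret` concludes with `D y = t (j (y, l₀))`, a nonzero retract of `L →₀ P`. -/

open Cardinal

universe u

namespace Vale.Agent.P307M

variable {R : Type u} [Ring R] {N P : Type u} [AddCommGroup N] [Module R N] [AddCommGroup P]
  [Module R P]

theorem free_of_ret {X Y L : Type u} (hL : ℵ₀ ≤ #L) (hP : #P ≤ #L)
    (H : ∀ D : Submodule R (L →₀ P), D ≠ ⊥ → Ret R D (L →₀ P) → Ret R P (L →₀ D))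
    (hN : Ret R N (X →₀ P)) (hbig : 2 ^ #L < #N) (hY : #Y = #N) :
    Nonempty (N ≃ₗ[R] (Y →₀ P)) := by
  have hLN : #L < #N := (cantor _).trans hbig
  have hY0 : ℵ₀ ≤ #Y := hY ▸ hL.trans hLN.le
  have h1 := hN.shrink hY0 hY.ge
  refine equiv_of_ret_ret hY0 h1 ?_
  obtain ⟨C, hC, hC', hr⟩ := kaplansky hL hP h1
  have hF : #(L →₀ P) ≤ #L := card_finsupp_le hL le_rfl hP
  have hT := gen_card C hC' hL (fun y => (hr y).card_le.trans hF) hLN
  choose i p hip using hr
  have inj : ∀ y, Function.Injective (i y) := fun y => Function.LeftInverse.injective (hip y)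
  have hS : #(Submodule R (L →₀ P)) * #L < #Y := by
    have a1 : #(Submodule R (L →₀ P)) ≤ 2 ^ #L :=
      (mk_le_of_injective SetLike.coe_injective).trans
        ((mk_set (α := L →₀ P)).trans_le (power_le_power_left two_ne_zero hF))
    rw [hY]
    exact mul_lt_of_lt (hL.trans hLN.le) (a1.trans_lt hbig) hLN
  obtain ⟨j, hj, hjT, hjt⟩ :=
    gen_fiber {y | C y ≠ ⊥} (fun y => LinearMap.range (i y)) hL hS (hY.trans_le hT)
  obtain ⟨l₀⟩ : Nonempty L := mk_ne_zero_iff.1 (aleph0_pos.trans_le hL).ne'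
  refine gen_ret C hC hC' j hj (fun y => LinearMap.range (i (j (y, l₀)))) (fun y l =>
    ⟨(LinearEquiv.ofInjective _ (inj _)).trans (LinearEquiv.ofEq _ _ (hjt y l l₀))⟩)
    fun y => H _ (fun h0 => hjT (y, l₀) ?_)
      ((ret_of_equiv (LinearEquiv.ofInjective _ (inj _)).symm).trans ⟨_, _, hip _⟩)
  refine (Submodule.eq_bot_iff _).2 fun x hx => congrArg Subtype.val (inj _ (a₂ := 0) (a₁ := ⟨x, hx⟩) ?_)
  rw [LinearMap.range_eq_bot.1 h0]
  rfl

end Vale.Agent.P307M
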