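import Vale.Agent.P307M.Hyp
import Vale.Agent.P307M.Gen

/-! Large members of `Add P` are free on `P`; split inclusions between them are strong. -/

open Cardinal

universe u

namespace Vale.Agent.P307M

variable {R : Type u} [Ring R] {K : ModAEC R} {l k : Cardinal.{u}} {P : Type u} [AddCommGroup P]
  [Module R P]

theorem Ctx.free (h : Ctx K l k P) {N Y : Type u} [AddCommGroup N] [Module R N]
    (hN : InAdd R P N) (hbig : 2 ^ l < #N) (hY : #Y = #N) : Nonempty (N ≃ₗ[R] (Y →₀ P)) := by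
  obtain ⟨X, hX⟩ := hN
  have hL : #l.out = l := Cardinal.mk_out l
  refine free_of_ret (L := l.out) (by rw [hL]; exact h.inf) (by rw [hL]; exact h.cardP) ?_ hX
    (by rw [hL]; exact hbig) hY
  intro D hD hr
  exact h.generates hL (Submodule.nontrivial_iff_ne_bot.2 hD) hr

theorem InAdd.of_ret {M N : Type u} [AddCommGroup M] [Module R M] [AddCommGroup N] [Module R N]
    (hN : InAdd R P N) (h : Ret R M N) : InAdd R P M := by
  obtain ⟨X, hX⟩ := hN
  exact ⟨X, h.trans hX⟩

variable {W : Type u} [AddCommGroup W] [Module R W]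

theorem Ctx.str_of_spl (h : Ctx K l k P) {A B : Submodule R W} (hs : Spl A B)
    (hB : InAdd R P B) (hbig : 2 ^ l < #A) : Str K A B := by
  have hA : InAdd R P A := hB.of_ret (ret_of_spl hs)
  have hAB : #A ≤ #B := card_mono hs.1
  obtain ⟨eA⟩ := h.free (Y := A) hA hbig rfl
  obtain ⟨eB⟩ := h.free (Y := B) hB (hbig.trans_le hAB) rfl
  have h1 : l ≤ #A := ((Cardinal.cantor l).trans hbig).le
  exact Vale.Agent.P307M.str_of_spl h.ls h.sums h.memP h.cardP hs h1 (h1.trans hAB) eA eB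

/-- categoricity between `2 ^ l` and `k` -/
theorem Ctx.equiv_of_le (h : Ctx K l k P) {M N : Type u} [AddCommGroup M] [Module R M]
    [AddCommGroup N] [Module R N] (hM : K.Mem M) (hN : K.Mem N) (hbig : 2 ^ l < #M)
    (hk : #M ≤ k) (hMN : #N = #M) : Nonempty (M ≃ₗ[R] N) := by
  obtain ⟨e1⟩ := h.free (Y := M) (h.inAdd_of_le hM hk) hbig rfl
  obtain ⟨e2⟩ := h.free (Y := M) (h.inAdd_of_le hN (hMN ▸ hk)) (hMN ▸ hbig) hMN.symm
  exact ⟨e1.trans e2.symm⟩

end Vale.Agent.P307M
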