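import Vale.Agent.P307M.Kap

/-! Counting lemmas for the decomposition. -/

open Cardinal

universe u

namespace Vale.Agent.P307M

variable {R : Type u} [Ring R] {N P : Type u} [AddCommGroup N] [Module R N] [AddCommGroup P]
  [Module R P]

/-- `N` is the image of the finite sums: `N = span (⋃ y ∈ T, C y)`; for example `N` is the image of
`List (Σ y : T, C y)` under summation, so `#N ≤ max ℵ₀ (#T * n)`; as `n < #N`, `#N ≤ #T`. -/
theorem gen_card {Y : Type u} (C : Y → Submodule R N) (hC : ⨆ y, C y = ⊤) {n : Cardinal.{u}}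
    (hn : ℵ₀ ≤ n) (h : ∀ y, #(C y) ≤ n) (hN : n < #N) : #N ≤ #{y | C y ≠ ⊥} := by
  have h1 : #(⋃ y : {y | C y ≠ ⊥}, (C y : Set N)) ≤ #{y | C y ≠ ⊥} * n :=
    (mk_iUnion_le _).trans (mul_le_mul' le_rfl (ciSup_le' fun y => h y))
  have h2 : #N ≤ #(List (⋃ y : {y | C y ≠ ⊥}, (C y : Set N))) := by
    refine mk_le_of_surjective (f := fun l => (l.map Subtype.val).sum) fun x => ?_
    have hx : x ∈ ⨆ y, C y := hC ▸ Submodule.mem_top
    refine Submodule.iSup_induction C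
      (motive := fun x => ∃ l : List (⋃ y : {y | C y ≠ ⊥}, (C y : Set N)),
        (l.map Subtype.val).sum = x) hx ?_ ⟨[], rfl⟩ ?_
    · intro y x hx
      by_cases hy : C y = ⊥
      · rw [hy, Submodule.mem_bot] at hx
        exact ⟨[], hx.symm⟩
      · exact ⟨[⟨x, Set.mem_iUnion.2 ⟨⟨y, hy⟩, hx⟩⟩], by simp⟩
    · rintro _ _ ⟨l, rfl⟩ ⟨l', rfl⟩
      exact ⟨l ++ l', by simp⟩
  by_contra hlt
  have h3 := mul_lt_of_lt (hn.trans hN.le) (not_le.1 hlt) hN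
  exact absurd (h2.trans (mk_list_le_max _)) (not_le.2 (max_lt (hn.trans_lt hN) (h1.trans_lt h3)))

/-- Pigeonhole. The points of `T` whose fibre in `T` has fewer than `#L` elements are at most
`#S * #L < #T` many; on the others each fibre `G` satisfies `G × L ≃ G`. -/
theorem gen_fiber {Y L S : Type u} (T : Set Y) (t : Y → S) (hL : ℵ₀ ≤ #L)
    (hS : #S * #L < #Y) (hT : #Y ≤ #T) :
    ∃ j : Y × L → Y, Function.Injective j ∧ (∀ a, j a ∈ T) ∧
      ∀ y l l', t (j (y, l)) = t (j (y, l')) := by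
  classical
  have hY : ℵ₀ ≤ #Y := by
    have h0 : Nonempty Y := mk_ne_zero_iff.1 (pos_of_gt hS).ne'
    have h1 : #S ≠ 0 := mk_ne_zero_iff.2 (h0.map t)
    exact hL.trans ((le_mul_left h1).trans hS.le)
  have hφ : ∀ s : S, ∃ φ : Y × L → Y, #L ≤ #{y | y ∈ T ∧ t y = s} →
      (∀ y l, y ∈ T ∧ t y = s → φ (y, l) ∈ T ∧ t (φ (y, l)) = s) ∧
      ∀ y l y' l', y ∈ T ∧ t y = s → y' ∈ T ∧ t y' = s → φ (y, l) = φ (y', l') →
        y = y' ∧ l = l' := by
    intro s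
    by_cases hs : #L ≤ #{y | y ∈ T ∧ t y = s}
    · have h1 : #({y | y ∈ T ∧ t y = s} × L) ≤ #{y | y ∈ T ∧ t y = s} := by
        rw [← mul_def]
        exact (mul_le_mul' le_rfl hs).trans (mul_eq_self (hL.trans hs)).le
      obtain ⟨f⟩ := (le_def _ _).1 h1
      refine ⟨fun a => if h : a.1 ∈ T ∧ t a.1 = s then (f (⟨a.1, h⟩, a.2)).1 else a.1,
        fun _ => ⟨fun y l hy => ?_, fun y l y' l' hy hy' e => ?_⟩⟩
      · simp only [dif_pos hy]
        exact (f (⟨y, hy⟩, l)).2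
      · simp only [dif_pos hy, dif_pos hy'] at e
        have := f.injective (Subtype.ext e)
        exact ⟨congrArg (fun a => a.1.1) this, congrArg Prod.snd this⟩
    · exact ⟨Prod.fst, fun h => absurd h hs⟩
  choose φ hφ using hφ
  have h1 : #{y | y ∈ T ∧ ¬ #L ≤ #{z | z ∈ T ∧ t z = t y}} ≤ #S * #L := by
    refine le_trans (mk_le_mk_of_subset (t := ⋃ s : S,
      {y | (y ∈ T ∧ t y = s) ∧ ¬ #L ≤ #{z | z ∈ T ∧ t z = s}}) ?_) ?_
    · intro y hy
      exact Set.mem_iUnion.2 ⟨t y, ⟨hy.1, rfl⟩, hy.2⟩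
    · refine (mk_iUnion_le _).trans (mul_le_mul' le_rfl (ciSup_le' fun s => ?_))
      by_cases hs : #L ≤ #{z | z ∈ T ∧ t z = s}
      · simp [hs]
      · exact (mk_le_mk_of_subset fun y hy => hy.1).trans (not_le.1 hs).le
  have h2 : #Y ≤ #{y | y ∈ T ∧ #L ≤ #{z | z ∈ T ∧ t z = t y}} := by
    by_contra hlt
    have h3 := add_lt_of_lt hY (not_le.1 hlt) (h1.trans_lt hS)
    refine absurd (hT.trans (le_trans (mk_le_mk_of_subset ?_) (mk_union_le _ _))) (not_le.2 h3)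
    intro y hy
    by_cases h : #L ≤ #{z | z ∈ T ∧ t z = t y}
    · exact Or.inl ⟨hy, h⟩
    · exact Or.inr ⟨hy, h⟩
  obtain ⟨i⟩ := (le_def _ _).1 h2
  have h3 := fun y l => (hφ _ (i y).2.2).1 (i y) l ⟨(i y).2.1, rfl⟩
  refine ⟨fun a => φ (t (i a.1)) (i a.1, a.2), ?_, fun a => (h3 a.1 a.2).1,
    fun y l l' => (h3 y l).2.trans (h3 y l').2.symm⟩
  rintro ⟨y, l⟩ ⟨y', l'⟩ e
  have e' : φ (t (i y)) (i y, l) = φ (t (i y')) (i y', l') := e
  have e1 : t (i y') = t (i y) := by rw [← (h3 y l).2, e', (h3 y' l').2]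
  rw [e1] at e'
  obtain ⟨h4, h5⟩ := (hφ _ (i y).2.2).2 _ _ _ _ ⟨(i y).2.1, rfl⟩ ⟨(i y').2.1, e1⟩ e'
  exact Prod.ext (i.injective (Subtype.ext h4)) h5

end Vale.Agent.P307M
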