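import Vale.Agent.P307M.Gen0

/-! Reassembling summands. -/

open Cardinal

universe u

namespace Vale.Agent.P307M

variable {R : Type u} [Ring R] {N P : Type u} [AddCommGroup N] [Module R N] [AddCommGroup P]
  [Module R P]

/-- `N ≃ Π₀ y, C y`; `Y →₀ P` is a retract of `Π₀ y, (L →₀ D y)`, which is
`Π₀ (y, l), C (j (y, l))`, a retract of `Π₀ y, C y`. Directly: in = `Finsupp.lsum` of
`Finsupp.lsum (fun l => (C (j (y,l))).subtype ∘ (e y l).symm) ∘ i y`; out = `DFinsupp.lsum` of
`if z = j (y, l) then single y ∘ p y ∘ single l ∘ e y l else 0`, after the equivalence. -/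
theorem gen_ret {Y L : Type u} (C : Y → Submodule R N) (hC : iSupIndep C) (hC' : ⨆ y, C y = ⊤)
    (j : Y × L → Y) (hj : Function.Injective j) (D : Y → Submodule R (L →₀ P))
    (e : ∀ y l, Nonempty (C (j (y, l)) ≃ₗ[R] D y)) (hD : ∀ y, Ret R P (L →₀ D y)) :
    Ret R (Y →₀ P) N := by
  classical
  choose i p hp using hD
  have e' := fun y l => (e y l).some
  let Φ := hC.linearEquiv hC'
  let g : Y × L → N →ₗ[R] (Y →₀ P) := fun a =>
    Finsupp.lsingle a.1 ∘ₗ p a.1 ∘ₗ Finsupp.lsingle a.2 ∘ₗ (e' a.1 a.2).toLinearMap ∘ₗ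
      DFinsupp.lapply (j a) ∘ₗ Φ.symm.toLinearMap
  let o : N →ₗ[R] (Y →₀ P) :=
    DFinsupp.lsum ℕ (fun z => Function.extend j g 0 z ∘ₗ (C z).subtype) ∘ₗ Φ.symm.toLinearMap
  have ho : ∀ y l (x : C (j (y, l))), o x = Finsupp.single y (p y (Finsupp.single l (e' y l x))) := by
    intro y l x
    have h1 : Φ.symm x = DFinsupp.single (j (y, l)) x := hC.linearEquiv_symm_apply hC' x.2
    simp only [o, LinearMap.comp_apply, LinearEquiv.coe_coe, h1, DFinsupp.lsum_single,
      hj.extend_apply, g, Submodule.subtype_apply, DFinsupp.lapply_apply, DFinsupp.single_eq_same,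
      Finsupp.lsingle_apply]
  let s : ∀ y, (L →₀ D y) →ₗ[R] N := fun y =>
    Finsupp.lsum ℕ fun l => (C (j (y, l))).subtype ∘ₗ (e' y l).symm.toLinearMap
  have hs : ∀ y, o ∘ₗ s y = Finsupp.lsingle y ∘ₗ p y := fun y =>
    Finsupp.lhom_ext fun l b => by
      simp only [s, LinearMap.comp_apply, Finsupp.lsum_single, Submodule.subtype_apply, ho,
        LinearEquiv.coe_coe, LinearEquiv.apply_symm_apply, Finsupp.lsingle_apply]
  have h : o ∘ₗ Finsupp.lsum ℕ (fun y => s y ∘ₗ i y) = LinearMap.id :=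
    Finsupp.lhom_ext fun y b => by
      have h1 := LinearMap.congr_fun (hs y) (i y b)
      simp only [LinearMap.comp_apply, hp, Finsupp.lsingle_apply] at h1
      simp only [LinearMap.comp_apply, Finsupp.lsum_single, h1, LinearMap.id_apply]
  exact ⟨_, o, LinearMap.congr_fun h⟩

end Vale.Agent.P307M
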