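import Vale.Agent.P307M.Hyp0

/-! Consequences of categoricity in `k`. -/

open Cardinal

universe u

namespace Vale.Agent.P307M

variable {R : Type u} [Ring R] {K : ModAEC R} {l k : Cardinal.{u}} {P : Type u} [AddCommGroup P]
  [Module R P]

theorem hyp_lt (h : Ctx K l k P) : l < k := (cantor l).trans h.lt_big

theorem hyp_iso (h : Ctx K l k P) {W : Type u} [AddCommGroup W] [Module R W] (hW : K.Mem W)
    (hk : #W = k) : Nonempty (W ≃ₗ[R] (k.out →₀ P)) := by
  have hi : ℵ₀ ≤ #k.out := by rw [mk_out]; exact h.inf.trans (hyp_lt h).le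
  have : Nonempty k.out := mk_ne_zero_iff.1 (aleph0_pos.trans_le hi).ne'
  refine h.cat.2 _ _ hW (mem_finsupp h.sums h.memP _) hk ?_
  rw [card_finsupp_eq h.nt hi (by rw [mk_out]; exact h.cardP.trans (hyp_lt h).le), mk_out]

theorem hyp_card (h : Ctx K l k P) {N D : Type u} [AddCommGroup N] [AddCommGroup D]
    (hN : #N ≤ k) (hnt : Nontrivial D) (hD : #D ≤ k) : #(N × (k.out →₀ D)) = k := by
  have hi : ℵ₀ ≤ k := h.inf.trans (hyp_lt h).le
  have h1 : #(k.out →₀ D) = k := by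
    rw [card_finsupp_eq hnt (by rwa [mk_out]) (by rwa [mk_out]), mk_out]
  rw [mk_prod, lift_id, lift_id, h1]
  exact mul_eq_right hi hN (mk_ne_zero N)

/-- `N × (X →₀ P)` and `X →₀ P` with `X = k.out` are models of size `k` (`mem_prod`,
`mem_finsupp`, `card_finsupp_eq`). -/
theorem Ctx.inAdd_of_le (h : Ctx K l k P) {N : Type u} [AddCommGroup N] [Module R N]
    (hN : K.Mem N) (hk : #N ≤ k) : InAdd R P N := by
  have hi : ℵ₀ ≤ #k.out := by rw [mk_out]; exact h.inf.trans (hyp_lt h).le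
  have : Nonempty k.out := mk_ne_zero_iff.1 (aleph0_pos.trans_le hi).ne'
  obtain ⟨e⟩ := hyp_iso h (mem_prod h.sums hN (mem_finsupp h.sums h.memP k.out))
    (hyp_card h hk h.nt (h.cardP.trans (hyp_lt h).le))
  exact ⟨k.out, ret_fst.trans (ret_of_equiv e)⟩

/-- With `X = k.out`, `J = univ`: `(L →₀ P) × (X →₀ D)` is a model of size `k`, so there is
`φ : (L →₀ P) × (X →₀ D) ≃ (X →₀ P)`. Take `I` with `#I ≤ l` supporting `φ (range inl)`
(`exists_support_set`) and `x ∉ I`. In: `snd ∘ φ.symm ∘ single x`; out: `lapply x ∘ φ ∘ inr`.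
So `Ret R P (X →₀ D)`; `Ret.shrink`. -/
theorem Ctx.generates (h : Ctx K l k P) {L D : Type u} [AddCommGroup D] [Module R D]
    (hL : #L = l) (hnt : Nontrivial D) (hD : Ret R D (L →₀ P)) : Ret R P (L →₀ D) := by
  have hc : #(L →₀ P) ≤ l := card_finsupp_le h.inf hL.le h.cardP
  have hm : K.Mem ((L →₀ P) × (k.out →₀ D)) := by
    have h1 := (str_stretch (X := k.out) h.ls h.sums h.memP h.cardP hL hD Set.univ Set.univ
      subset_rfl).mem_right
    rwa [Finsupp.supported_univ, Submodule.prod_top, mem_top_iff] at h1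
  obtain ⟨φ⟩ := hyp_iso h hm (hyp_card h (hc.trans (hyp_lt h).le) hnt
    (hD.card_le.trans (hc.trans (hyp_lt h).le)))
  obtain ⟨I, hI, hs⟩ := exists_support_set (R := R) (Set.range fun a : L →₀ P => φ (a, 0)) h.inf
    (mk_range_le.trans hc)
  obtain ⟨x, hx⟩ : ∃ x, x ∉ I := by
    by_contra hn
    have h1 : I = Set.univ := Set.eq_univ_of_forall fun x => not_not.1 fun e => hn ⟨x, e⟩
    rw [h1, mk_univ, mk_out] at hI
    exact (hyp_lt h).not_ge hI
  have h2 : Ret R P (k.out →₀ D) := by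
    refine ⟨LinearMap.snd R _ _ ∘ₗ φ.symm.toLinearMap ∘ₗ Finsupp.lsingle x,
      Finsupp.lapply x ∘ₗ φ.toLinearMap ∘ₗ LinearMap.inr R _ _, fun y => ?_⟩
    have h3 : φ ((φ.symm (Finsupp.single x y)).1, 0) x = 0 :=
      (Finsupp.mem_supported' R _).1 (hs ⟨_, rfl⟩) x hx
    have h4 : φ ((φ.symm (Finsupp.single x y)).1, 0) + φ (0, (φ.symm (Finsupp.single x y)).2) =
        Finsupp.single x y := by
      rw [← map_add, Prod.mk_add_mk, add_zero, zero_add, Prod.mk.eta, φ.apply_symm_apply]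
    have h5 := congrArg (fun f => f x) h4
    simp only [Finsupp.add_apply, h3, zero_add, Finsupp.single_eq_same] at h5
    exact h5
  exact h2.shrink (hL ▸ h.inf) (hL ▸ h.cardP)

end Vale.Agent.P307M
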