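import Vale.Agent.P307M.Std

/-! Stretching. -/

open Cardinal

universe u

namespace Vale.Agent.P307M

variable {R : Type u} [Ring R] {K : ModAEC R} {l k : Cardinal.{u}} {P : Type u} [AddCommGroup P]
  [Module R P]

/-- The modules of the stretched chain. -/
noncomputable abbrev hyp0_G (R : Type u) [Ring R] (Q D : Type u) [AddCommGroup Q] [Module R Q] [AddCommGroup D]
    [Module R D] {X : Type u} (I : Set X) : Submodule R (Q × (X →₀ D)) :=
  (⊤ : Submodule R Q).prod (Finsupp.supported D R I)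

section

variable {Q X D : Type u} [AddCommGroup Q] [Module R Q] [AddCommGroup D] [Module R D]

theorem hyp0_mem (I : Set X) (x : Q × (X →₀ D)) :
    x ∈ hyp0_G R Q D I ↔ (x.2.support : Set X) ⊆ I := by
  simp [Submodule.mem_prod, Finsupp.mem_supported]

theorem hyp0_mono {I J : Set X} (h : I ⊆ J) : hyp0_G R Q D I ≤ hyp0_G R Q D J := fun x hx =>
  (hyp0_mem J x).2 (((hyp0_mem I x).1 hx).trans h)

/-- `G I` is the product. -/
theorem hyp0_equiv (I : Set X) : Nonempty (hyp0_G R Q D I ≃ₗ[R] ((I →₀ D) × Q)) := by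
  let e : hyp0_G R Q D I ≃ₗ[R] (Finsupp.supported D R I × Q) :=
    { toFun := fun x => (⟨x.1.2, x.2.2⟩, x.1.1)
      map_add' := fun _ _ => rfl
      map_smul' := fun _ _ => rfl
      invFun := fun y => ⟨(y.2, y.1.1), ⟨trivial, y.1.2⟩⟩
      left_inv := fun _ => rfl
      right_inv := fun _ => rfl }
  exact ⟨e.trans ((Finsupp.supportedEquivFinsupp I).prodCongr (LinearEquiv.refl R Q))⟩

theorem hyp0_spl {I J : Set X} (h : I ⊆ J) : Spl (hyp0_G R Q D I) (hyp0_G R Q D J) := by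
  refine ⟨hyp0_mono h, (⊥ : Submodule R Q).prod (Finsupp.supported D R (J \ I)), ?_, ?_⟩
  · rw [Submodule.disjoint_def]
    rintro ⟨a, b⟩ ⟨-, h1⟩ ⟨h2, h3⟩
    have hb : b = 0 := Submodule.disjoint_def.1
      (Finsupp.disjoint_supported_supported (M := D) (R := R) Set.disjoint_sdiff_right) b h1 h3
    have ha : a = 0 := (Submodule.mem_bot R).1 h2
    rw [ha, hb]; rfl
  · rw [Submodule.prod_sup_prod, ← Finsupp.supported_union, Set.union_sdiff_cancel h, sup_bot_eq]

theorem hyp0_iSup {ι : Type u} [Nonempty ι] (S : ι → Set X) :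
    ⨆ i, hyp0_G R Q D (S i) = hyp0_G R Q D (⋃ i, S i) := by
  refine le_antisymm (iSup_le fun i => hyp0_mono (Set.subset_iUnion S i)) ?_
  rintro ⟨a, b⟩ ⟨-, hb⟩
  have h1 : ((a, 0) : Q × (X →₀ D)) ∈ ⨆ i, hyp0_G R Q D (S i) :=
    Submodule.mem_iSup_of_mem (Classical.arbitrary ι) ⟨trivial, Submodule.zero_mem _⟩
  have h2 : Finsupp.supported D R (⋃ i, S i) ≤
      (⨆ i, hyp0_G R Q D (S i)).comap (LinearMap.inr R Q (X →₀ D)) := by
    rw [Finsupp.supported_iUnion]
    exact iSup_le fun i y hy => Submodule.mem_iSup_of_mem i ⟨trivial, hy⟩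
  have h3 := Submodule.add_mem _ h1 (h2 hb)
  simpa using h3

end

theorem hyp0_small {L X D : Type u} [AddCommGroup D] [Module R D] (hL : ℵ₀ ≤ #L)
    (hD : Ret R D (L →₀ P)) (I : Set X) (hI : #I ≤ #L) :
    Nonempty (hyp0_G R (L →₀ P) D I ≃ₗ[R] (L →₀ P)) := by
  obtain ⟨e1⟩ := hyp0_equiv (R := R) (Q := L →₀ P) (D := D) I
  obtain ⟨e2⟩ := finsupp_finsupp_equiv (R := R) (P := P) I L
  have hc : #(I × L) ≤ #L := by
    rw [Cardinal.mk_prod, Cardinal.lift_id, Cardinal.lift_id]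
    exact (mul_le_mul' hI le_rfl).trans_eq (Cardinal.mul_eq_self hL)
  have r : Ret R (I →₀ D) (L →₀ P) :=
    ((hD.finsupp I).trans (ret_of_equiv e2)).trans (ret_finsupp_of_card_le hc)
  obtain ⟨e3⟩ := swindle hL r
  exact ⟨e1.trans e3⟩

/-- Strong induction on `#J`. If `#J ≤ #L`: both sides are `≃ (L →₀ P) × (I →₀ D) ≃ (L →₀ P)`
(`Finsupp.supportedEquivFinsupp`, `swindle`; `I →₀ D` is a retract of `I →₀ (L →₀ P) ≃
(I × L →₀ P)`, a retract of `L →₀ P`), and the inclusion splits (complement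
`⊥.prod (supported (J \ I))`): `str_of_spl`. Otherwise `set_cover J` gives `S i`; by induction the
chain `G (S i)` is strong, `str_chain_union` gives `G (S i) ≤_K G J`; `G (I ∩ S i) ≤_K G (S i)`
by induction, and `str_chain_smooth` gives `G I ≤_K G J` (`Finsupp.supported_iUnion`). -/
theorem str_stretch (hl : K.LSBound l) (hs : K.SumClosed) (hP : K.Mem P) (hc : #P ≤ l)
    {L X D : Type u} [AddCommGroup D] [Module R D] (hL : #L = l) (hD : Ret R D (L →₀ P))
    (I J : Set X) (hIJ : I ⊆ J) :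
    Str K ((⊤ : Submodule R (L →₀ P)).prod (Finsupp.supported D R I))
      ((⊤ : Submodule R (L →₀ P)).prod (Finsupp.supported D R J)) := by
  have hinf : ℵ₀ ≤ #L := hL ▸ le_trans (self_le_add_left _ _) hl.1
  have key : ∀ n : Cardinal.{u}, ∀ I J : Set X, #J = n → I ⊆ J →
      Str K (hyp0_G R (L →₀ P) D I) (hyp0_G R (L →₀ P) D J) := by
    intro n
    induction n using WellFoundedLT.induction with
    | ind n ih =>
    intro I J hJ hIJ
    by_cases hs' : #J ≤ #L
    · obtain ⟨eI⟩ := hyp0_small hinf hD I ((Cardinal.mk_le_mk_of_subset hIJ).trans hs')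
      obtain ⟨eJ⟩ := hyp0_small hinf hD J hs'
      exact str_of_spl hl hs hP hc (hyp0_spl hIJ) hL.ge hL.ge eI eJ
    have hJi : ℵ₀ ≤ #J := hinf.trans (not_le.1 hs').le
    obtain ⟨S, hS, hlt, hU⟩ := set_cover J hJi
    have := nonempty_ord_toType hJi
    have h1 := str_chain_union (K := K) (fun i => hyp0_G R (L →₀ P) D (S i)) fun i j hij =>
      ih _ (hJ ▸ hlt j) _ _ rfl (hS hij)
    rw [hyp0_iSup, hU] at h1
    have h2 := str_chain_smooth (K := K) (fun i => hyp0_G R (L →₀ P) D (I ∩ S i))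
      (fun i j hij => hyp0_mono (Set.inter_subset_inter_right _ (hS hij)))
      fun i => (ih _ (hJ ▸ hlt i) _ _ rfl Set.inter_subset_right).trans (h1 i)
    rwa [hyp0_iSup, ← Set.inter_iUnion, hU, Set.inter_eq_left.2 hIJ] at h2
  exact key _ I J rfl hIJ

end Vale.Agent.P307M
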