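import Vale.Agent.P307M.Base

/-! An ambient module with room for extensions. -/

open Cardinal

universe u

namespace Vale.Agent.P307M

variable {R : Type u} [Ring R]

theorem split0_emb (M : Type u) [AddCommGroup M] [Module R M] :
    ∃ (E : Type u) (_ : AddCommGroup E) (_ : Module R E), Module.Injective R E ∧
      ∃ e : M →ₗ[R] E, Function.Injective e := by
  obtain ⟨I, hI, f, hf⟩ := CategoryTheory.EnoughInjectives.presentation (ModuleCat.of R M)
  exact ⟨I, inferInstance, inferInstance, Module.injective_module_of_injective_object R I,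
    f.hom, (ModuleCat.mono_iff_injective f).mp hf⟩

open Classical in
theorem split0_free {B E : Type u} [Zero E] (ψ : B → Set B → E) :
    ∃ i : Set B, ∀ (b : B) (x : E), ψ b = Pi.single i x → x = 0 := by
  by_contra hn
  have h : ∀ i : Set B, ∃ (b : B) (x : E), ψ b = Pi.single i x ∧ x ≠ 0 := fun i => by
    by_contra h1
    refine hn ⟨i, fun b x hb => ?_⟩
    by_contra h2
    exact h1 ⟨b, x, hb, h2⟩
  choose b x h1 h2 using h
  refine Function.cantor_injective b fun i j hij => ?_
  by_contra hne
  have h3 := congrFun ((h1 i).symm.trans (hij ▸ h1 j)) i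
  rw [Pi.single_eq_same, Pi.single_eq_of_ne hne] at h3
  exact h2 i h3

/-- An ambient module with room. Embed `B × (B ⧸ A)` into an injective module `E`
(`CategoryTheory.Injective.under` in `ModuleCat.{u} R`, `Module.injective_iff_injective_object`),
`V = (ι → E)` with `#B < #ι` (for example `ι = Set B`), injective by `Module.Injective.pi`.
Given an injective `φ : A → V` extend it to `ψ : B → V`; the coordinate copies of `B ⧸ A` have
pairwise trivial intersections and `#(range ψ) < #ι`, so some coordinate copy meets `range ψ`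
only in `0`; add `single a ∘ emb ∘ mkQ` to `ψ`. -/
theorem exists_ambient {B : Type u} [AddCommGroup B] [Module R B] (A : Submodule R B) :
    ∃ (V : Type u) (_ : AddCommGroup V) (_ : Module R V),
      (∃ φ : A →ₗ[R] V, Function.Injective φ) ∧
      ∀ φ : A →ₗ[R] V, Function.Injective φ →
        ∃ ψ : B →ₗ[R] V, Function.Injective ψ ∧ ∀ a : A, ψ a = φ a := by
  classical
  obtain ⟨E, _, _, hE, e, he⟩ := split0_emb (R := R) (A × (B ⧸ A))
  have hV : Module.Injective R (Set B → E) := Module.Injective.pi R fun _ : Set B => E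
  refine ⟨Set B → E, inferInstance, inferInstance,
    ⟨LinearMap.pi fun _ => e ∘ₗ LinearMap.inl R A (B ⧸ A), fun a a' h => ?_⟩, fun φ hφ => ?_⟩
  · exact LinearMap.inl_injective (he (congrFun h ∅))
  obtain ⟨ψ, hψ⟩ := hV.out A.subtype A.injective_subtype φ
  obtain ⟨i, hi⟩ := split0_free ψ
  have hA : ∀ a : A, (LinearMap.single R (fun _ : Set B => E) i ∘ₗ e ∘ₗ
      LinearMap.inr R A (B ⧸ A) ∘ₗ A.mkQ) a = 0 := fun a => by
    have h0 : A.mkQ a = 0 := (Submodule.Quotient.mk_eq_zero A).2 a.2
    rw [LinearMap.comp_apply, LinearMap.comp_apply, LinearMap.comp_apply, h0, map_zero, map_zero,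
      map_zero]
  have hext : ∀ a : A, (ψ + LinearMap.single R (fun _ : Set B => E) i ∘ₗ e ∘ₗ
      LinearMap.inr R A (B ⧸ A) ∘ₗ A.mkQ) a = φ a := fun a => by
    rw [LinearMap.add_apply, hA a, add_zero]
    exact hψ a
  refine ⟨_, (injective_iff_map_eq_zero _).2 fun b hb => ?_, hext⟩
  have h1 : ψ b = Pi.single i (-e (LinearMap.inr R A (B ⧸ A) (A.mkQ b))) := by
    rw [Pi.single_neg]
    exact eq_neg_of_add_eq_zero_left hb
  have h2 := neg_eq_zero.1 (hi b _ h1)
  have h3 : A.mkQ b = 0 :=
    LinearMap.inr_injective (he (h2.trans (by rw [map_zero, map_zero])))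
  have h4 : b ∈ A := (Submodule.Quotient.mk_eq_zero A).1 h3
  have h5 : φ ⟨b, h4⟩ = φ 0 := ((hext ⟨b, h4⟩).symm.trans hb).trans (map_zero φ).symm
  exact congrArg Subtype.val (hφ h5)

variable {K : ModAEC R} {l k : Cardinal.{u}} {P : Type u} [AddCommGroup P] [Module R P]
  {W : Type u} [AddCommGroup W] [Module R W]

end Vale.Agent.P307M
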