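import Vale.Agent.P307M.Ord1

/-! Closure points below a successor cardinal. -/

open Cardinal

universe u

namespace Vale.Agent.P307M

variable {R : Type u} [Ring R] {W : Type u} [AddCommGroup W] [Module R W]

/-- small subsets of `n⁺` are bounded (`Cardinal.isRegular_succ`; or count: an unbounded set `t`
gives `univ = ⋃ j ∈ t, Iic j` of size at most `n * n`) -/
theorem bdd_of_card_le {n : Cardinal.{u}} (hn : ℵ₀ ≤ n) (t : Set (Order.succ n).ord.ToType)
    (ht : #t ≤ n) : ∃ i, ∀ j ∈ t, j < i := by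
  haveI := Cardinal.noMaxOrder (hn.trans (Order.le_succ n))
  by_contra h
  push Not at h
  have h1 : (Set.univ : Set (Order.succ n).ord.ToType) ⊆ ⋃ j : t, Set.Iio j.1 := fun i _ => by
    obtain ⟨i', hi⟩ := exists_gt i
    obtain ⟨j, hj, h2⟩ := h i'
    exact Set.mem_iUnion.2 ⟨⟨j, hj⟩, hi.trans_le h2⟩
  have h2 := (mk_le_mk_of_subset h1).trans (mk_iUnion_le_sum_mk.trans
    (sum_le_sum _ (fun _ => n) fun j => Order.lt_succ_iff.1 (mk_Iio_toType_ord_lt j.1)))
  rw [mk_univ, mk_ord_toType, sum_const'] at h2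
  exact absurd (h2.trans ((mul_le_mul_left ht n).trans (mul_eq_self hn).le))
    (not_le.2 (Order.lt_succ n))

/-- a nonzero closure point: `a (k+1)` above `a k` and above `f j` for all `j ≤ a k`;
take the least strict upper bound of the `a k` -/
theorem closure_point {n : Cardinal.{u}} (hn : ℵ₀ ≤ n)
    (f : (Order.succ n).ord.ToType → (Order.succ n).ord.ToType) :
    ∃ i, (∃ j, j < i) ∧ ∀ j, j < i → f j < i := by
  have h1 : ∀ i : (Order.succ n).ord.ToType, ∃ i', ∀ j ∈ insert i (f '' Set.Iio i), j < i' :=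
    fun i => bdd_of_card_le hn _ (mk_insert_le.trans ((add_le_add (mk_image_le.trans
      (Order.lt_succ_iff.1 (mk_Iio_toType_ord_lt i))) (one_le_aleph0.trans hn)).trans
      (add_eq_self hn).le))
  choose g hg using h1
  obtain ⟨i0⟩ := nonempty_ord_toType (hn.trans (Order.le_succ n))
  obtain ⟨b, hb⟩ := bdd_of_card_le hn (Set.range fun k : ℕ => g^[k] i0)
    ((Set.countable_range _).le_aleph0.trans hn)
  obtain ⟨i, hi, hm⟩ := wellFounded_lt.has_min {i | ∀ k : ℕ, g^[k] i0 < i}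
    ⟨b, fun k => hb _ ⟨k, rfl⟩⟩
  refine ⟨i, ⟨_, hi 0⟩, fun j hj => ?_⟩
  have h2 : ¬∀ k : ℕ, g^[k] i0 < j := fun h => hm j h hj
  push Not at h2
  obtain ⟨k, hk⟩ := h2
  have h3 := hi (k + 1 + 1)
  rw [Function.iterate_succ_apply', Function.iterate_succ_apply'] at h3
  exact (hg _ _ (Set.mem_insert_of_mem _
    ⟨j, hk.trans_lt (hg _ _ (Set.mem_insert _ _)), rfl⟩)).trans h3

/-- a small subset of the union of a chain of length `n⁺` lies in one member -/
theorem subset_member {n : Cardinal.{u}} (hn : ℵ₀ ≤ n)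
    (Q : (Order.succ n).ord.ToType → Submodule R W) (hQ : Monotone Q) (t : Set W)
    (ht : #t ≤ n) (hsub : t ⊆ (⨆ i, Q i : Submodule R W)) : ∃ i, t ⊆ Q i := by
  haveI := nonempty_ord_toType (hn.trans (Order.le_succ n))
  have h1 : ∀ x : t, ∃ i, x.1 ∈ Q i := fun x => (mem_iSup_mono Q hQ x.1).1 (hsub x.2)
  choose g hg using h1
  obtain ⟨i, hi⟩ := bdd_of_card_le hn (Set.range g) (mk_range_le.trans ht)
  exact ⟨i, fun x hx => hQ (hi _ ⟨⟨x, hx⟩, rfl⟩).le (hg ⟨x, hx⟩)⟩

end Vale.Agent.P307M
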