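import Vale.Agent.P307M.Ret0

/-! Shrinking retracts; Eilenberg swindle. -/

open Cardinal

universe u

namespace Vale.Agent.P307M

variable {R : Type u} [Ring R] {M N D P : Type u} [AddCommGroup M] [Module R M]
  [AddCommGroup N] [Module R N] [AddCommGroup D] [Module R D] [AddCommGroup P] [Module R P]

theorem ret_pair (I : Type u) :
    Nonempty ((I →₀ M × N) ≃ₗ[R] (I →₀ M) × (I →₀ N)) := by
  refine ⟨LinearEquiv.ofLinearMap
    ((Finsupp.mapRange.linearMap (LinearMap.fst R M N)).prod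
      (Finsupp.mapRange.linearMap (LinearMap.snd R M N)))
    ((Finsupp.mapRange.linearMap (LinearMap.inl R M N)).coprod
      (Finsupp.mapRange.linearMap (LinearMap.inr R M N))) ?_ ?_⟩
  · refine LinearMap.ext fun x => Prod.ext (Finsupp.ext fun i => ?_) (Finsupp.ext fun i => ?_)
    · simp
    · simp
  · refine LinearMap.ext fun x => Finsupp.ext fun i => ?_
    simp

theorem ret_absorb {X : Type u} (hX : ℵ₀ ≤ #X) :
    Nonempty ((D × (X →₀ D)) ≃ₗ[R] (X →₀ D)) := by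
  have h : #(PUnit.{u + 1} ⊕ X) = #X := by
    rw [mk_sum, lift_id, lift_id, mk_punit, add_comm, add_one_eq hX]
  obtain ⟨e⟩ := finsupp_equiv_of_card_eq (R := R) (P := D) h
  exact ⟨((Finsupp.uniqueLinearEquiv R D PUnit.unit).symm.prodCongr (LinearEquiv.refl R _)).trans
    ((Finsupp.sumFinsuppLEquivProdFinsupp R).symm.trans e)⟩

/-- The union `I` of the supports of the `i m` has `#I ≤ #M * ℵ₀ ≤ #Y`; `M` is a retract of
`I →₀ P` (restrict with `Finsupp.lsubtypeDomain`, extend with `lmapDomain`), then embed. -/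
theorem Ret.shrink {X Y : Type u} (h : Ret R M (X →₀ P)) (hY : ℵ₀ ≤ #Y) (hM : #M ≤ #Y) :
    Ret R M (Y →₀ P) := by
  obtain ⟨i, p, h⟩ := h
  obtain ⟨I, h1, h2⟩ := exists_support_set (R := R) (Set.range i) hY (mk_range_le.trans hM)
  refine Ret.trans (N := I →₀ P) ?_ (ret_finsupp_of_card_le h1)
  refine Ret.trans ?_ (ret_of_equiv (Finsupp.supportedEquivFinsupp (M := P) (R := R) I))
  exact ⟨i.codRestrict _ fun m => h2 ⟨m, rfl⟩, p.comp (Submodule.subtype _), h⟩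

/-- Eilenberg swindle. With `G = X →₀ P`: `G ≃ D × C`, `G ≃ (ℕ →₀ G) ≃ (ℕ →₀ D) × (ℕ →₀ C)`
(use `ULift ℕ` or `X ≃ ℕ × X`), and `D × (ℕ →₀ D) ≃ (ℕ →₀ D)` (`Option ℕ ≃ ℕ`,
`Finsupp.optionEquiv`-like, or `sumFinsuppLEquivProdFinsupp`). -/
theorem swindle {X : Type u} (hX : ℵ₀ ≤ #X) (h : Ret R D (X →₀ P)) :
    Nonempty ((D × (X →₀ P)) ≃ₗ[R] (X →₀ P)) := by
  obtain ⟨C, ⟨e⟩⟩ := h.exists_compl
  obtain ⟨e1⟩ := finsupp_equiv_of_card_eq (R := R) (P := P) (X := X) (Y := X × X)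
    (by rw [mk_prod, lift_id, mul_eq_self hX])
  obtain ⟨e2⟩ := finsupp_finsupp_equiv (R := R) (P := P) X X
  obtain ⟨e3⟩ := ret_pair (R := R) (M := D) (N := C) X
  obtain ⟨e4⟩ := ret_absorb (R := R) (D := D) hX
  have f : (X →₀ P) ≃ₗ[R] (X →₀ D) × (X →₀ C) :=
    e1.trans (e2.symm.trans ((Finsupp.mapRange.linearEquiv e).trans e3))
  exact ⟨((LinearEquiv.refl R D).prodCongr f).trans ((LinearEquiv.prodAssoc R _ _ _).symm.trans
    ((e4.prodCongr (LinearEquiv.refl R _)).trans f.symm))⟩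

/-- `N ≃ G × C`, `C` is a retract of `N` hence of `G`, swindle. -/
theorem equiv_of_ret_ret {X : Type u} (hX : ℵ₀ ≤ #X) (h1 : Ret R N (X →₀ P))
    (h2 : Ret R (X →₀ P) N) : Nonempty (N ≃ₗ[R] (X →₀ P)) := by
  obtain ⟨C, ⟨e⟩⟩ := h2.exists_compl
  obtain ⟨f⟩ := swindle hX ((ret_snd.trans (ret_of_equiv e.symm)).trans h1)
  exact ⟨e.trans ((LinearEquiv.prodComm R _ _).trans f)⟩

/-- `⨆ C i ≃ Π₀ i, C i` (`iSupIndep.linearEquiv`, or `iSupIndep.dfinsupp_lsum_injective` with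
`LinearEquiv.ofInjective` and `Submodule.iSup_eq_range_dfinsupp_lsum`), a retract of
`Π₀ i, (X →₀ P)` by `DFinsupp.mapRange.linearMap`; `finsuppLequivDFinsupp`; curry. -/
theorem ret_of_iSupIndep {W : Type u} [AddCommGroup W] [Module R W] {ι X : Type u}
    (C : ι → Submodule R W) (hC : iSupIndep C) (h : ∀ i, Ret R (C i) (X →₀ P)) :
    Ret R (⨆ i, C i : Submodule R W) (ι × X →₀ P) := by
  classical
  choose i p h using h
  obtain ⟨e2⟩ := finsupp_finsupp_equiv (R := R) (P := P) ι X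
  have e1 : (⨆ i, C i : Submodule R W) ≃ₗ[R] Π₀ i, C i :=
    (LinearEquiv.ofEq _ _ (Submodule.iSup_eq_range_dfinsupp_lsum C)).trans
      (LinearEquiv.ofInjective _ hC.dfinsupp_lsum_injective).symm
  have h1 : Ret R (Π₀ i, C i) (Π₀ _ : ι, X →₀ P) :=
    ⟨DFinsupp.mapRange.linearMap i, DFinsupp.mapRange.linearMap p, fun x =>
      DFinsupp.ext fun j => h j (x j)⟩
  exact (ret_of_equiv e1).trans (h1.trans
    (ret_of_equiv ((finsuppLequivDFinsupp R).symm.trans e2)))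

end Vale.Agent.P307M
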