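import Vale.Agent.P307M.Lat
import Vale.Agent.P307M.Ret
import Vale.Agent.P307M.Ord

/-! Catching a split stage in a long chain. -/

open Cardinal

universe u

namespace Vale.Agent.P307M

variable {R : Type u} [Ring R]

/-- Catching up. `i, p` the retraction of `⨆ Q`. For each `j` choose a support set `I j`
(`#(I j) ≤ n`) of `i (Q j)` and `f j` with `p (supported (I j)) ⊆ Q (f j)` (`subset_member`);
`closure_point`; `I = ⋃ j < a, I j`; the retraction is `p ∘ filter I ∘ i` (`spl_of_map`). -/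
theorem exists_spl_stage {V P X : Type u} [AddCommGroup V] [Module R V] [AddCommGroup P]
    [Module R P] {n : Cardinal.{u}} (hn : ℵ₀ ≤ n) (hP : #P ≤ n)
    (Q : (Order.succ n).ord.ToType → Submodule R V) (hQ : Monotone Q) (hc : ∀ i, #(Q i) ≤ n)
    (h : Ret R (⨆ i, Q i : Submodule R V) (X →₀ P)) :
    ∃ a, (∃ j, j < a) ∧ Spl (⨆ j : Set.Iio a, Q j.1) (⨆ i, Q i) := by
  classical
  obtain ⟨i, p, hip⟩ := h
  have h1 : ∀ j, ∃ I : Set X, #I ≤ n ∧ ∀ x : (⨆ i, Q i : Submodule R V), (x : V) ∈ Q j →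
      i x ∈ Finsupp.supported P R I := fun j => by
    obtain ⟨I, hI, hs⟩ := exists_support_set (R := R)
      (Set.range fun x : Q j => i (Submodule.inclusion (le_iSup Q j) x)) hn
      (mk_range_le.trans (hc j))
    exact ⟨I, hI, fun x hx => hs ⟨⟨x, hx⟩, rfl⟩⟩
  choose I hI hs using h1
  have h2 : ∀ j, ∃ m, ∀ z ∈ Finsupp.supported P R (I j), (p z : V) ∈ Q m := fun j => by
    obtain ⟨m, hm⟩ := subset_member hn Q hQ
      (Set.range fun z : Finsupp.supported P R (I j) => (p z : V))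
      (mk_range_le.trans (card_supported_le _ hn (hI j) hP))
      (Set.range_subset_iff.2 fun z => (p z).2)
    exact ⟨m, fun z hz => hm ⟨⟨z, hz⟩, rfl⟩⟩
  choose f hf using h2
  obtain ⟨a, ⟨j₀, hj₀⟩, ha⟩ := closure_point hn f
  have : Nonempty (Set.Iio a) := ⟨⟨j₀, hj₀⟩⟩
  have h3 : Finsupp.supported P R (⋃ j : Set.Iio a, I j) ≤
      (⨆ j : Set.Iio a, Q j.1).comap ((⨆ i, Q i).subtype ∘ₗ p) := by
    rw [Finsupp.supported_iUnion]
    exact iSup_le fun j z hz => le_iSup (fun j : Set.Iio a => Q j.1) ⟨f j, ha j j.2⟩ (hf j z hz)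
  refine ⟨a, ⟨j₀, hj₀⟩, spl_of_map (iSup_le fun j => le_iSup Q j.1)
    (((⨆ i, Q i).subtype ∘ₗ p) ∘ₗ (Finsupp.supported P R (⋃ j : Set.Iio a, I j)).subtype ∘ₗ
      Finsupp.restrictDom P R (⋃ j : Set.Iio a, I j) ∘ₗ i) (fun x => h3 (Subtype.prop _))
    fun x hx => ?_⟩
  obtain ⟨j, hj⟩ := (mem_iSup_mono (fun j : Set.Iio a => Q j.1) (fun _ _ h => hQ h) _).1 hx
  have h4 := LinearMap.congr_fun (Finsupp.restrictDom_comp_subtype (M := P) (R := R)
    (⋃ j : Set.Iio a, I j)) ⟨i x, Finsupp.supported_mono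
      (Set.subset_iUnion (fun j : Set.Iio a => I j) j) (hs j x hj)⟩
  exact congrArg Subtype.val ((congrArg (fun z => p z.1) h4).trans (hip x))

variable {K : ModAEC R} {l k : Cardinal.{u}} {P : Type u} [AddCommGroup P] [Module R P]
  {W : Type u} [AddCommGroup W] [Module R W]

end Vale.Agent.P307M
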