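import Vale.Agent.P307M.Free
import Vale.Agent.P307M.Split0
import Vale.Agent.P307M.Split1

/-! Base case: strong inclusions between models of the same size split. -/

open Cardinal

universe u

namespace Vale.Agent.P307M

variable {R : Type u} [Ring R]

variable {K : ModAEC R} {l k : Cardinal.{u}} {P : Type u} [AddCommGroup P] [Module R P]
  {W : Type u} [AddCommGroup W] [Module R W]

theorem split_aux (h : Ctx K l k P) {B : Type u} [AddCommGroup B] [Module R B] {A : Submodule R B}
    (hs : Str K A ⊤) (hbig : 2 ^ l < #A) (hAB : #A = #B) (hk : Order.succ #B ≤ k) : Spl A ⊤ := by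
  by_contra hns
  have hl : l ≤ #B := ((cantor l).trans (hbig.trans_eq hAB)).le
  have hn : ℵ₀ ≤ #B := h.inf.trans hl
  obtain ⟨V, _, _, ⟨φ0, hφ0⟩, hext⟩ := exists_ambient A
  have h0 : K.Mem (LinearMap.range φ0) ∧ #(LinearMap.range φ0) = #B :=
    ⟨K.mem_iso _ _ (LinearEquiv.ofInjective φ0 hφ0) hs.mem_left,
      (mk_congr (LinearEquiv.ofInjective φ0 hφ0).toEquiv).symm.trans hAB⟩
  obtain ⟨Q, hG, -, hle, hbad⟩ := rec_long (R := R) (W := V) hn (fun Q => K.Mem Q ∧ #Q = #B) (Str K)
    (fun Q Q' => ¬ Spl Q Q') (LinearMap.range φ0) h0 (fun _ _ h => h.le) (fun _ h => str_refl h.1)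
    (fun _ _ _ => Str.trans)
    (by
      rintro Q ⟨hQ, hc⟩
      obtain ⟨e⟩ := h.equiv_of_le (M := A) (N := Q) hs.mem_left hQ hbig
        (hAB.le.trans ((Order.le_succ _).trans hk)) (hc.trans hAB.symm)
      obtain ⟨ψ, hψ, hψa⟩ := hext (Q.subtype ∘ₗ e.toLinearMap)
        (Q.injective_subtype.comp e.injective)
      have hmap : A.map ψ = Q := by
        ext x
        constructor
        · rintro ⟨a, ha, rfl⟩
          have := hψa ⟨a, ha⟩
          simp only [LinearMap.comp_apply, Submodule.subtype_apply, LinearEquiv.coe_coe] at this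
          rw [this]
          exact (e ⟨a, ha⟩).2
        · intro hx
          refine ⟨(e.symm ⟨x, hx⟩ : A), (e.symm ⟨x, hx⟩).2, ?_⟩
          rw [hψa]
          simp
      have hst : Str K Q ((⊤ : Submodule R B).map ψ) := by
        rw [← hmap]
        exact (str_map_iff ψ hψ A ⊤).2 hs
      refine ⟨(⊤ : Submodule R B).map ψ, ⟨hst.mem_right, ?_⟩, hst, ?_⟩
      · exact (mk_congr (Submodule.equivMapOfInjective ψ hψ ⊤).toEquiv).symm.trans
          (mk_congr (Submodule.topEquiv (R := R) (M := B)).toEquiv)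
      · rw [← hmap, spl_map_iff ψ hψ]
        exact hns)
    (by
      intro ι _ _ hne C hι hG hle
      have hu := str_chain_union C hle
      obtain ⟨i0⟩ := hne
      refine ⟨⟨(hu i0).mem_right, le_antisymm ?_ ?_⟩, hu⟩
      · exact card_iSup_le C (fun i j hij => (hle i j hij).le) hn hι fun i => (hG i).2.le
      · exact (hG i0).2.ge.trans (card_mono (le_iSup C i0)))
  have hn' : ℵ₀ ≤ Order.succ #B := hn.trans (Order.le_succ _)
  have := nonempty_ord_toType hn'
  have hmono : Monotone Q := fun i j hij => (hle i j hij).le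
  have hu := str_chain_union Q hle
  have hc : #(⨆ i, Q i : Submodule R V) ≤ Order.succ #B :=
    card_iSup_le Q hmono hn' (by simp) fun i => (hG i).2.le.trans (Order.le_succ _)
  obtain ⟨X, hX⟩ := h.inAdd_of_le (hu (Classical.arbitrary _)).mem_right (hc.trans hk)
  obtain ⟨a, hpre, hspl⟩ := exists_spl_stage hn (h.cardP.trans hl) Q hmono (fun i => (hG i).2.le) hX
  exact (hbad a hpre).2.2 (spl_restrict hspl (hbad a hpre).2.1.le (le_iSup Q a))

/-- Suppose not. Work with the module `B` and `A' = A.comap B.subtype` (`Str K A' ⊤`, not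
`Spl A' ⊤`, by `str_map_iff`, `spl_map_iff` with `B.subtype`). `exists_ambient`; `rec_long` with
`Good Q := K.Mem Q ∧ #Q = n`, `Le := Str K`, `Bad Q Q' := ¬ Spl Q Q'`; step: `Ctx.equiv_of_le`
gives `A' ≃ Q`, extend to `ψ`, `Q' = ⊤.map ψ`, `A'.map ψ = Q`; chain: `str_chain_union`,
`card_iSup_le`. The union is a model of size at most `n⁺ ≤ k`, so `Ctx.inAdd_of_le`,
`exists_spl_stage`, `spl_restrict` give a contradiction. -/
theorem Ctx.spl_base (h : Ctx K l k P) {A B : Submodule R W} (hs : Str K A B)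
    (hbig : 2 ^ l < #A) (hAB : #A = #B) (hk : Order.succ #B ≤ k) : Spl A B := by
  have h1 : Str K (A.comap B.subtype) ⊤ := (str_top_iff _).2 hs.2
  have hc : #(A.comap B.subtype) = #A := mk_congr (Submodule.comapSubtypeEquivOfLe hs.le).toEquiv
  have h2 := split_aux h h1 (hbig.trans_eq hc.symm) (hc.trans hAB) hk
  rw [← spl_map_iff B.subtype B.injective_subtype, Submodule.map_comap_subtype,
    Submodule.map_subtype_top, inf_eq_right.2 hs.le] at h2
  exact h2

end Vale.Agent.P307M
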