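import Vale.Agent.P307M.Cl3
import Vale.Agent.P307M.Split

/-! The main induction on the size of the model. -/

open Cardinal

universe u

namespace Vale.Agent.P307M

variable {R : Type u} [Ring R] {K : ModAEC R} {l k : Cardinal.{u}} {P : Type u} [AddCommGroup P]
  [Module R P] {W : Type u} [AddCommGroup W] [Module R W]

theorem ind_stage {M N : Submodule R W} (hs : Str K M N) {ι : Type u} [LinearOrder ι]
    [WellFoundedLT ι] (F : ι → Submodule R W) (hF : Monotone F)
    (hF2 : ∀ i, Str K (F i) N ∧ M ≤ F i) (i : ι) :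
    Str K (M ⊔ ⨆ j : Set.Iio i, F j) (F i) := by
  have hle := iSup_Iio_le F hF i
  refine Str.coh ?_ (hF2 i).1 (sup_le (hF2 i).2 hle)
  by_cases hp : ∃ j, j < i
  · obtain ⟨j0, hj0⟩ := hp
    have : Nonempty (Set.Iio i) := ⟨⟨j0, hj0⟩⟩
    have h1 : M ≤ ⨆ j : Set.Iio i, F j :=
      (hF2 j0).2.trans (le_iSup (fun j : Set.Iio i => F j) ⟨j0, hj0⟩)
    rw [sup_eq_right.2 h1]
    exact str_chain_smooth (fun j : Set.Iio i => F j) (fun a b hab => hF hab)
      (fun j => (hF2 j).1)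
  · rw [iSup_Iio_eq_bot F hp, sup_bot_eq]
    exact hs

theorem Ctx.spl_small (h : Ctx K l k P) {M N : Submodule R W} (hs : Str K M N)
    (hbig : 2 ^ l < #M) (hlt : #M < #N)
    (ih : ∀ A B : Submodule R W, Str K A B → 2 ^ l < #A → #B < #N → Spl A B) : Spl M N := by
  obtain ⟨F, hF, hF2, hF3⟩ := exists_str_filtration h.ls hs.mem_right hs.le
    ((Cardinal.cantor l).trans hbig).le le_rfl hlt
  have key := spl_filtration M F hF (by
    intro i
    rw [inf_eq_left.2 (hF2 i).2.1]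
    exact ih _ _ (ind_stage hs F hF (fun i => ⟨(hF2 i).1, (hF2 i).2.1⟩) i)
      (hbig.trans_le (card_mono le_sup_left)) (hF2 i).2.2)
  rwa [hF3, inf_eq_left.2 hs.le] at key

theorem Ctx.inAdd_step (h : Ctx K l k P) {N : Submodule R W} (hN : K.Mem N) (hk : k < #N)
    (ih : ∀ A B : Submodule R W, Str K A B → 2 ^ l < #A → #B < #N → Spl A B)
    (ih' : ∀ B : Submodule R W, K.Mem B → #B < #N → InAdd R P B) : InAdd R P N := by
  have hm : Order.succ (2 ^ l) < #N := (Order.succ_le_of_lt h.lt_big).trans_lt hk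
  have hlm : l ≤ Order.succ (2 ^ l) := ((Cardinal.cantor l).trans (Order.lt_succ _)).le
  obtain ⟨t, htN, htc⟩ := exists_subset_card (M := N) hm.le
  obtain ⟨M, hM, htM, hMc⟩ := exists_str_ls h.ls hlm hN t htN htc.le
  have hbig : 2 ^ l < #M := (Order.lt_succ _).trans_le (htc ▸ card_le_of_subset htM)
  obtain ⟨F, hF, hF2, hF3⟩ := exists_str_filtration h.ls hN hM.le hlm hMc hm
  have hstep : ∀ i, Spl (⨆ j : Set.Iio i, F j) (F i) := by
    intro i
    by_cases hp : ∃ j, j < i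
    · obtain ⟨j0, hj0⟩ := hp
      have h1 : M ≤ ⨆ j : Set.Iio i, F j :=
        (hF2 j0).2.1.trans (le_iSup (fun j : Set.Iio i => F j) ⟨j0, hj0⟩)
      have h2 := ind_stage hM F hF (fun i => ⟨(hF2 i).1, (hF2 i).2.1⟩) i
      rw [sup_eq_right.2 h1] at h2
      exact ih _ _ h2 (hbig.trans_le (card_mono h1)) (hF2 i).2.2
    · rw [iSup_Iio_eq_bot F hp]
      exact spl_bot _
  choose C hCd hCs using fun i => (hstep i).2
  obtain ⟨hind, hsup⟩ := indep_of_filtration F C hF hCd hCs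
  have hinf : ℵ₀ ≤ #N := (h.inf.trans hlm).trans hm.le
  have hret : ∀ i, Ret R (C i) (N →₀ P) := by
    intro i
    have h1 := spl_of_compl (hCd i) (hCs i)
    obtain ⟨X, hX⟩ := (ih' (F i) (hF2 i).1.mem_left (hF2 i).2.2).of_ret (ret_of_spl h1)
    exact hX.shrink hinf (card_mono (h1.1.trans (hF2 i).1.le))
  have hfin := ret_of_iSupIndep C hind hret
  rw [hsup, hF3] at hfin
  exact ⟨_, hfin⟩

theorem Ctx.main_ind (h : Ctx K l k P) (c : Cardinal.{u}) :
    (∀ N : Submodule R W, K.Mem N → #N = c → InAdd R P N) ∧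
      ∀ M N : Submodule R W, Str K M N → 2 ^ l < #M → #N = c → Spl M N := by
  induction c using WellFoundedLT.induction with
  | ind c IH =>
    have ih : ∀ A B : Submodule R W, Str K A B → 2 ^ l < #A → #B < c → Spl A B :=
      fun A B h1 h2 h3 => (IH _ h3).2 A B h1 h2 rfl
    have ih' : ∀ B : Submodule R W, K.Mem B → #B < c → InAdd R P B :=
      fun B h1 h3 => (IH _ h3).1 B h1 rfl
    have ha : ∀ N : Submodule R W, K.Mem N → #N = c → InAdd R P N := by
      intro N hN hc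
      by_cases hk : #N ≤ k
      · exact h.inAdd_of_le hN hk
      · exact h.inAdd_step hN (not_le.1 hk) (hc ▸ ih) (hc ▸ ih')
    refine ⟨ha, ?_⟩
    intro M N hs hbig hc
    rcases (card_mono hs.1).lt_or_eq with hlt | heq
    · exact h.spl_small hs hbig hlt (hc ▸ ih)
    · by_cases hsm : #N ≤ Order.succ (Order.succ (2 ^ l))
      · exact h.spl_base hs hbig heq ((Order.succ_le_succ hsm).trans h.big)
      · exact Sit.spl ⟨h, hs, heq, not_le.1 hsm, ha N hs.mem_right hc,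
          fun A hA h1 h2 => h.spl_small hA h1 h2 (hc ▸ ih)⟩

theorem Ctx.inAdd (h : Ctx K l k P) {N : Type u} [AddCommGroup N] [Module R N] (hN : K.Mem N) :
    InAdd R P N :=
  ((h.main_ind (W := N) _).1 ⊤ (mem_top_iff.2 hN) rfl).of_ret
    (ret_of_equiv Submodule.topEquiv.symm)

theorem exists_ctx (hl : K.LSBound l) (hs : K.SumClosed)
    (hk : Order.succ (Order.succ (Order.succ (2 ^ l))) ≤ k) (hc : K.Categorical k) :
    ∃ (P : Type u) (_ : AddCommGroup P) (_ : Module R P), Ctx K l k P := by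
  obtain ⟨M, _, _, hM, hMk⟩ := hc.1
  have hinf : ℵ₀ ≤ l := le_trans (self_le_add_left _ _) hl.1
  have h2 : 2 ^ l < k :=
    lt_of_lt_of_le ((Order.lt_succ _).trans ((Order.lt_succ _).trans (Order.lt_succ _))) hk
  have h1 : 1 < #M := by
    rw [hMk]
    exact lt_of_le_of_lt (Cardinal.one_le_aleph0.trans hinf) ((Cardinal.cantor l).trans h2)
  have : Nontrivial M := Cardinal.one_lt_iff_nontrivial.1 h1
  obtain ⟨x, hx⟩ := exists_ne (0 : M)
  obtain ⟨A, hA, hxA, hcA⟩ := hl.2 M hM {x}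
  refine ⟨A, inferInstance, inferInstance, hl, hs, K.mem_of_strong_left M A hA, ?_, ?_, hc, hk⟩
  · exact ⟨⟨⟨x, hxA rfl⟩, 0, fun h0 => hx (congrArg Subtype.val h0)⟩⟩
  · rw [Cardinal.mk_singleton, add_comm, Cardinal.add_one_eq hinf] at hcA
    exact hcA

theorem transfer (hl : K.LSBound l) (hs : K.SumClosed)
    (hk : Order.succ (Order.succ (Order.succ (2 ^ l))) ≤ k) (hc : K.Categorical k)
    {k' : Cardinal.{u}} (hk' : 2 ^ l < k') : K.Categorical k' := by
  obtain ⟨P, _, _, h⟩ := exists_ctx hl hs hk hc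
  have hY : #k'.out = k' := Cardinal.mk_out k'
  have hlk : l ≤ #k'.out := by rw [hY]; exact ((Cardinal.cantor l).trans hk').le
  have hinf : ℵ₀ ≤ #k'.out := h.inf.trans hlk
  have : Nonempty k'.out :=
    Cardinal.mk_ne_zero_iff.1 (ne_of_gt (lt_of_lt_of_le Cardinal.aleph0_pos hinf))
  refine ⟨⟨k'.out →₀ P, inferInstance, inferInstance, mem_finsupp hs h.memP _, ?_⟩, ?_⟩
  · rw [card_finsupp_eq h.nt hinf (h.cardP.trans hlk), hY]
  · intro M N _ _ _ _ hM hN hMk hNk
    obtain ⟨e1⟩ := h.free (Y := k'.out) (h.inAdd hM) (hMk ▸ hk') (hY.trans hMk.symm)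
    obtain ⟨e2⟩ := h.free (Y := k'.out) (h.inAdd hN) (hNk ▸ hk') (hY.trans hNk.symm)
    exact ⟨e1.trans e2.symm⟩

end Vale.Agent.P307M
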