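import Vale.Agent.P307M.Lat
import Vale.Agent.P307M.Ret
import Vale.Agent.P307M.Ord

/-! Kaplansky-Walker decomposition of a summand of `Y →₀ P` into small summands.

Proof. Let `i, p` be the retraction, `e = i ∘ p` the idempotent of `F = Y →₀ P`. Call `I : Set Y`
closed if `e` maps `supported P R I` into itself; unions of closed sets are closed
(`Finsupp.supported_iUnion`). Every `y` lies in a closed set `cl y` with `#(cl y) ≤ #L`
(`ω` steps with `exists_support_set`, `card_supported_le`; `kap_closed`). Well-order `Y`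
(`exists_wellOrder Y`), put `J y = ⋃ z ≤ y, cl z`, `J' y = ⋃ z < y, cl z`,
`N y = (supported (J y)).comap i`. Then `⨆ z < y, N z = (supported (J' y)).comap i =: U y`
(for `x` in the right side, `x = p (i x)` and `p` maps `supported (cl z)` into `N z`).
Let `q = Finsupp.filter`-projection onto `J' y` (a linear map `F → F`), `r = p ∘ q ∘ i : N → N`;
`r` maps into `U y`, fixes `U y`; `C y = N y ⊓ ker r` is a complement of `U y` in `N y`.
`C y` is a retract of `(J y \ J' y) →₀ P` (in: `x ↦ i x` restricted to the new coordinates,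
out: `z ↦ p z - r (p z)`), and `J y \ J' y ⊆ cl y` is small. Finish with `indep_of_filtration`. -/

open Cardinal

universe u

namespace Vale.Agent.P307M

variable {R : Type u} [Ring R] {N P : Type u} [AddCommGroup N] [Module R N] [AddCommGroup P]
  [Module R P]

theorem kap_union {ι : Type u} {Y : Type u} {M : Type u} [AddCommGroup M] [Module R M]
    (f : (Y →₀ P) →ₗ[R] M) (I : ι → Set Y) (A : Submodule R M)
    (h : ∀ k, ∀ z ∈ Finsupp.supported P R (I k), f z ∈ A) :
    ∀ z ∈ Finsupp.supported P R (⋃ k, I k), f z ∈ A := by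
  have : Finsupp.supported P R (⋃ k, I k) ≤ A.comap f := by
    rw [Finsupp.supported_iUnion]
    exact iSup_le h
  exact this

theorem kap_closed {Y : Type u} (e : (Y →₀ P) →ₗ[R] (Y →₀ P)) {n : Cardinal.{u}} (hn : ℵ₀ ≤ n)
    (hP : #P ≤ n) (y : Y) :
    ∃ I : Set Y, y ∈ I ∧ #I ≤ n ∧
      ∀ z ∈ Finsupp.supported P R I, e z ∈ Finsupp.supported P R I := by
  have st : ∀ I : {I : Set Y // #I ≤ n}, ∃ I' : {I : Set Y // #I ≤ n},
      ∀ z ∈ Finsupp.supported P R I.1, e z ∈ Finsupp.supported P R I'.1 := fun I => by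
    obtain ⟨J, h1, h2⟩ := exists_support_set (R := R)
      (e '' (Finsupp.supported P R I.1 : Set (Y →₀ P))) hn
      (mk_image_le.trans (card_supported_le (R := R) I.1 hn I.2 hP))
    exact ⟨⟨J, h1⟩, fun z hz => h2 ⟨z, hz, rfl⟩⟩
  choose f hf using st
  let a : ℕ → {I : Set Y // #I ≤ n} := fun k =>
    f^[k] ⟨{y}, by rw [mk_singleton]; exact one_le_aleph0.trans hn⟩
  refine ⟨⋃ k : ULift.{u} ℕ, (a k.down).1, Set.mem_iUnion.2 ⟨⟨0⟩, rfl⟩, ?_,
    kap_union e _ _ fun k z hz => ?_⟩
  · refine (mk_iUnion_le _).trans (mul_le_of_le hn (by simpa using hn) (ciSup_le' fun k => ?_))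
    exact (a k.down).2
  · refine Finsupp.supported_mono
      (Set.subset_iUnion (fun k : ULift.{u} ℕ => (a k.down).1) ⟨k.down + 1⟩) ?_
    have : a (k.down + 1) = f (a k.down) := Function.iterate_succ_apply' _ _ _
    simp only [this]
    exact hf _ z hz

theorem kaplansky {Y L : Type u} (hL : ℵ₀ ≤ #L) (hP : #P ≤ #L) (h : Ret R N (Y →₀ P)) :
    ∃ C : Y → Submodule R N, iSupIndep C ∧ ⨆ y, C y = ⊤ ∧ ∀ y, Ret R (C y) (L →₀ P) := by
  classical
  obtain ⟨i, p, hip⟩ := h
  choose cl c1 c2 c3 using kap_closed (i ∘ₗ p) hL hP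
  obtain ⟨_, _⟩ := exists_wellFoundedLT Y
  let J : Y → Set Y := fun y => ⋃ z : Set.Iic y, cl z
  let J' : Y → Set Y := fun y => ⋃ z : Set.Iio y, cl z
  let Nn : Y → Submodule R N := fun y => (Finsupp.supported P R (J y)).comap i
  let U : Y → Submodule R N := fun y => (Finsupp.supported P R (J' y)).comap i
  let r : Y → N →ₗ[R] N := fun y =>
    p ∘ₗ (Finsupp.supported P R (J' y)).subtype ∘ₗ Finsupp.restrictDom P R (J' y) ∘ₗ i
  have hcJ : ∀ y, cl y ⊆ J y := fun y => Set.subset_iUnion (fun z : Set.Iic y => cl z) ⟨y, le_rfl⟩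
  have hJ : ∀ y z, y ≤ z → J y ⊆ J z := fun y z h => Set.iUnion_subset fun w =>
    Set.subset_iUnion (fun w : Set.Iic z => cl w) ⟨w, w.2.trans h⟩
  have hJ' : ∀ y z, y < z → J y ⊆ J' z := fun y z h => Set.iUnion_subset fun w =>
    Set.subset_iUnion (fun w : Set.Iio z => cl w) ⟨w, lt_of_le_of_lt w.2 h⟩
  have hJJ : ∀ y, J' y ⊆ J y := fun y => Set.iUnion_subset fun w =>
    Set.subset_iUnion (fun w : Set.Iic y => cl w) ⟨w, le_of_lt w.2⟩
  have hp : ∀ y, ∀ w ∈ Finsupp.supported P R (cl y), p w ∈ Nn y := fun y w hw =>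
    Finsupp.supported_mono (hcJ y) (c3 y w hw)
  have hU : ∀ y, ⨆ z : Set.Iio y, Nn z = U y := fun y => by
    refine le_antisymm (iSup_le fun z => Submodule.comap_mono
      (Finsupp.supported_mono (hJ' _ _ z.2))) fun x hx => ?_
    rw [← hip x]
    exact kap_union p _ _
      (fun z w hw => le_iSup (fun z : Set.Iio y => Nn z) z (hp _ w hw)) _ hx
  have hUN : ∀ y, U y ≤ Nn y := fun y => Submodule.comap_mono (Finsupp.supported_mono (hJJ y))
  have r1 : ∀ y x, r y x ∈ U y := fun y x =>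
    kap_union (i ∘ₗ p) _ (Finsupp.supported P R (J' y)) (fun z w hw => Finsupp.supported_mono
      (Set.subset_iUnion (fun w : Set.Iio y => cl w) z) (c3 _ w hw)) _
      (Finsupp.restrictDom P R (J' y) (i x)).2
  have r2 : ∀ y, ∀ x ∈ U y, r y x = x := fun y x hx => by
    have : Finsupp.filter (· ∈ J' y) (i x) = i x := by
      ext a
      rw [Finsupp.filter_apply]
      split_ifs with ha
      · rfl
      · exact ((Finsupp.mem_supported' R _).1 hx a ha).symm
    change p (Finsupp.filter (· ∈ J' y) (i x)) = x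
    rw [this, hip]
  have r3 : ∀ y, ∀ x ∈ Nn y, x - r y x ∈ Nn y ⊓ LinearMap.ker (r y) := fun y x hx =>
    ⟨sub_mem hx (hUN y (r1 y x)), by
      change r y (x - r y x) = 0
      rw [map_sub, r2 y _ (r1 y x), sub_self]⟩
  obtain ⟨k1, k2⟩ := indep_of_filtration Nn (fun y => Nn y ⊓ LinearMap.ker (r y))
    (fun y z h => Submodule.comap_mono (Finsupp.supported_mono (hJ y z h)))
    (fun y => by
      rw [hU, Submodule.disjoint_def]
      exact fun x h1 h2 => (r2 y x h1).symm.trans h2.2)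
    (fun y => by
      rw [hU]
      refine le_antisymm (sup_le (hUN y) inf_le_left) fun x hx => ?_
      exact Submodule.mem_sup.2 ⟨_, r1 y x, _, r3 y x hx, add_sub_cancel _ _⟩)
  refine ⟨_, k1, k2.trans (eq_top_iff.2 fun x _ => ?_), fun y => ?_⟩
  · rw [← hip x]
    exact kap_union p cl _ (fun z w hw => le_iSup Nn z (hp _ w hw)) _
      fun a _ => Set.mem_iUnion.2 ⟨a, c1 a⟩
  · refine Ret.trans (N := Finsupp.supported P R (cl y \ J' y)) ?_
      ((ret_of_equiv (Finsupp.supportedEquivFinsupp _)).trans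
        (ret_finsupp_of_card_le ((mk_le_mk_of_subset Set.sdiff_subset).trans (c2 y))))
    refine ⟨Finsupp.restrictDom P R (cl y \ J' y) ∘ₗ i ∘ₗ Submodule.subtype _,
      LinearMap.codRestrict _ ((LinearMap.id - r y) ∘ₗ p ∘ₗ Submodule.subtype _) fun w =>
        r3 y _ (hp y _ (Finsupp.supported_mono Set.sdiff_subset w.2)), fun x => Subtype.ext ?_⟩
    have hx : r y x = 0 := x.2.2
    have e : Finsupp.filter (· ∈ cl y \ J' y) (i x) = i x - Finsupp.filter (· ∈ J' y) (i x) := by
      ext a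
      rw [Finsupp.sub_apply, Finsupp.filter_apply, Finsupp.filter_apply]
      by_cases h1 : a ∈ J' y
      · rw [if_pos h1, if_neg fun h => h.2 h1, sub_self]
      · rw [if_neg h1, sub_zero]
        split_ifs with h2
        · rfl
        · refine ((Finsupp.mem_supported' R _).1 x.2.1 a fun h3 => ?_).symm
          obtain ⟨z, hz⟩ := Set.mem_iUnion.1 h3
          rcases (le_iff_lt_or_eq.1 z.2) with h4 | h4
          · exact h1 (Set.mem_iUnion.2 ⟨⟨z, h4⟩, hz⟩)
          · exact h2 ⟨h4 ▸ hz, h1⟩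
    have e2 : p (Finsupp.filter (· ∈ cl y \ J' y) (i x)) = x := by
      rw [e, map_sub, hip]
      exact sub_eq_self.2 hx
    change p (Finsupp.filter (· ∈ cl y \ J' y) (i x)) -
      r y (p (Finsupp.filter (· ∈ cl y \ J' y) (i x))) = x
    rw [e2, hx, sub_zero]

end Vale.Agent.P307M
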