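import Vale.Agent.P307M.Lat0

/-! Splitting along filtrations. -/

open Cardinal

universe u

namespace Vale.Agent.P307M

variable {R : Type u} [Ring R] {W : Type u} [AddCommGroup W] [Module R W]


theorem lat_key {ι : Type u} [LinearOrder ι] (M : Submodule R W) (N C : ι → Submodule R W)
    (hN : Monotone N) (hC : ∀ i, C i ≤ N i)
    (hd : ∀ i, Disjoint ((M ⊓ N i) ⊔ ⨆ j : Set.Iio i, N j) (C i)) (v : ι → W) (s : Finset ι) :
    (∀ i ∈ s, v i ∈ C i) → ∑ i ∈ s, v i ∈ M → ∀ i ∈ s, v i = 0 := by
  induction s using Finset.induction_on_max with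
  | empty => simp
  | insert a s hlt ih =>
    intro hv hM
    have ha : a ∉ s := fun h => lt_irrefl _ (hlt a h)
    rw [Finset.sum_insert ha] at hM
    have hU : ∑ i ∈ s, v i ∈ ⨆ j : Set.Iio a, N j :=
      Submodule.sum_mem _ fun i hi => Submodule.mem_iSup_of_mem (⟨i, hlt i hi⟩ : Set.Iio a)
        (hC i (hv i (Finset.mem_insert_of_mem hi)))
    have hUN : (⨆ j : Set.Iio a, N j) ≤ N a := iSup_le fun j => hN (le_of_lt j.2)
    have hva : v a ∈ C a := hv a (Finset.mem_insert_self _ _)
    have h0 : v a = 0 := by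
      refine Submodule.disjoint_def.1 (hd a) _ ?_ hva
      have e : v a = (v a + ∑ i ∈ s, v i) - ∑ i ∈ s, v i := by abel
      rw [e]
      exact Submodule.sub_mem _
        (Submodule.mem_sup_left ⟨hM, Submodule.add_mem _ (hC a hva) (hUN hU)⟩)
        (Submodule.mem_sup_right hU)
    rw [h0, zero_add] at hM
    intro i hi
    rcases Finset.mem_insert.1 hi with rfl | hi
    · exact h0
    · exact ih (fun i hi => hv i (Finset.mem_insert_of_mem hi)) hM i hi

theorem lat_span {ι : Type u} [LinearOrder ι] [WellFoundedLT ι] (M : Submodule R W)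
    (N C : ι → Submodule R W)
    (hs : ∀ i, ((M ⊓ N i) ⊔ ⨆ j : Set.Iio i, N j) ⊔ C i = N i) (i : ι) :
    N i ≤ (M ⊓ ⨆ i, N i) ⊔ ⨆ i, C i := by
  induction i using WellFoundedLT.induction with
  | ind i ih =>
    rw [← hs i]
    refine sup_le (sup_le ?_ (iSup_le fun j => ih j j.2)) ?_
    · exact le_sup_of_le_left (inf_le_inf_left _ (le_iSup N i))
    · exact le_sup_of_le_right (le_iSup C i)

/-- Splitting along a filtration. Choose complements `C i` of ` (M ⊓ N i) ⊔ U i` in `N i`
(`U i = ⨆ j < i, N j`), take `C = ⨆ C i`. Spanning: well-founded induction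
`N i ≤ (M ⊓ ⨆ N) ⊔ C`. Disjointness: by well-founded induction `M ⊓ ⨆ j ≤ i, C j = ⊥`
(write `x = a + c`, `a ∈ ⨆ j < i, C j ≤ U i`, `c ∈ C i`; then `c = x - a` lies in
` (M ⊓ N i) ⊔ U i`, so `c = 0`; the suprema over `j < i` and over all `i` of the initial sums are
directed: `Submodule.mem_iSup_of_directed`, or use `Submodule.iSup_induction`). -/
theorem spl_filtration {ι : Type u} [LinearOrder ι] [WellFoundedLT ι] (M : Submodule R W)
    (N : ι → Submodule R W) (hN : Monotone N)
    (h : ∀ i, Spl ((M ⊓ N i) ⊔ ⨆ j : Set.Iio i, N j) (N i)) :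
    Spl (M ⊓ ⨆ i, N i) (⨆ i, N i) := by

  choose C hd hs using fun i => (h i).2
  have hC : ∀ i, C i ≤ N i := fun i => le_sup_right.trans (hs i).le
  refine ⟨inf_le_right, ⨆ i, C i, ?_, le_antisymm ?_ (iSup_le (lat_span M N C hs))⟩
  · refine Submodule.disjoint_def.2 fun x hx hxC => ?_
    obtain ⟨f, hf, rfl⟩ := (Submodule.mem_iSup_iff_exists_finsupp C x).1 hxC
    exact Finset.sum_eq_zero (lat_key M N C hN hC hd f f.support (fun i _ => hf i) hx.1)
  · exact sup_le inf_le_right (iSup_mono hC)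

/-- Complements along a filtration are independent and span. Independence: for example
`iSupIndep_of_dfinsuppSumAddHom_injective` or `iSupIndep_iff_finset_sum_eq_zero_imp_eq_zero`,
taking the largest index with a nonzero term. -/
theorem indep_of_filtration {ι : Type u} [LinearOrder ι] [WellFoundedLT ι]
    (N C : ι → Submodule R W) (hN : Monotone N)
    (hd : ∀ i, Disjoint (⨆ j : Set.Iio i, N j) (C i))
    (hs : ∀ i, (⨆ j : Set.Iio i, N j) ⊔ C i = N i) :
    iSupIndep C ∧ ⨆ i, C i = ⨆ i, N i := by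

  have hC : ∀ i, C i ≤ N i := fun i => le_sup_right.trans (hs i).le
  refine ⟨(iSupIndep_iff_finsetSum_eq_zero_imp_eq_zero C).2 fun s v hv h0 =>
    lat_key ⊥ N C hN hC (fun i => by simpa using hd i) v s hv (by simpa using h0),
    le_antisymm (iSup_mono hC) (iSup_le fun i => ?_)⟩
  simpa using lat_span ⊥ N C (fun i => by simpa using hs i) i

end Vale.Agent.P307M
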