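import Vale.Agent.P307M.Base

/-! Lattice lemmas on direct summands (modular law). -/

open Cardinal

universe u

namespace Vale.Agent.P307M

variable {R : Type u} [Ring R] {W : Type u} [AddCommGroup W] [Module R W]

theorem spl_refl (A : Submodule R W) : Spl A A := by
  exact ⟨le_rfl, ⊥, disjoint_bot_right, sup_bot_eq _⟩

theorem spl_bot (B : Submodule R W) : Spl ⊥ B := by
  exact ⟨bot_le, B, disjoint_bot_left, bot_sup_eq _⟩

/-- complement: `C ⊔ C'` (check disjointness on elements or with the modular law). -/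
theorem spl_trans {A B D : Submodule R W} (h1 : Spl A B) (h2 : Spl B D) : Spl A D := by
  obtain ⟨h, C, hd, rfl⟩ := h1
  obtain ⟨h', C', hd', rfl⟩ := h2
  exact ⟨h.trans h', C ⊔ C', hd.disjoint_sup_right_of_disjoint_sup_left hd', (sup_assoc _ _ _).symm⟩

/-- complement `C ⊓ B`, modular law `sup_inf_assoc_of_le`. -/
theorem spl_restrict {A B D : Submodule R W} (h : Spl A D) (hAB : A ≤ B) (hBD : B ≤ D) :
    Spl A B := by
  obtain ⟨-, C, hd, rfl⟩ := h
  exact ⟨hAB, C ⊓ B, hd.mono_right inf_le_left, by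
    rw [← sup_inf_assoc_of_le _ hAB, inf_eq_right.2 hBD]⟩

/-- the complement is itself a summand -/
theorem spl_of_compl {A C B : Submodule R W} (hd : Disjoint A C) (hs : A ⊔ C = B) : Spl C B := by
  exact ⟨hs ▸ le_sup_right, A, hd.symm, by rw [sup_comm, hs]⟩

/-- transport along an injective linear map (for the backward direction take the `comap` of the
complement, which lies inside `B.map f`). -/
theorem spl_map_iff {W' : Type u} [AddCommGroup W'] [Module R W'] (f : W →ₗ[R] W')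
    (hf : Function.Injective f) (A B : Submodule R W) :
    Spl (A.map f) (B.map f) ↔ Spl A B := by
  constructor
  · rintro ⟨h, C, hd, hs⟩
    refine ⟨(Submodule.map_le_map_iff_of_injective hf _ _).1 h, C.comap f,
      Submodule.disjoint_def.2 fun x hx hx' => hf ?_,
      Submodule.map_injective_of_injective hf ?_⟩
    · rw [map_zero]
      exact Submodule.disjoint_def.1 hd _ (Submodule.mem_map_of_mem hx) hx'
    · rw [Submodule.map_sup, Submodule.map_comap_eq_self
        ((le_sup_right.trans hs.le).trans LinearMap.map_le_range), hs]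
  · rintro ⟨h, C, hd, rfl⟩
    exact ⟨Submodule.map_mono h, C.map f, Submodule.disjoint_map hf hd,
      (Submodule.map_sup _ _ _).symm⟩

/-- a retraction gives a complement: the image in `W` of the kernel of `r`. -/
theorem spl_of_map {A B : Submodule R W} (hAB : A ≤ B) (r : B →ₗ[R] W) (hr : ∀ x, r x ∈ A)
    (hid : ∀ x : B, (x : W) ∈ A → r x = x) : Spl A B := by
  refine ⟨hAB, (LinearMap.ker r).map B.subtype, Submodule.disjoint_def.2 ?_,
    le_antisymm (sup_le hAB (Submodule.map_subtype_le _ _)) fun x hx => ?_⟩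
  · rintro _ hx ⟨y, hy, rfl⟩
    exact (hid y hx).symm.trans hy
  · refine Submodule.mem_sup.2 ⟨r ⟨x, hx⟩, hr _, x - r ⟨x, hx⟩,
      ⟨⟨x, hx⟩ - ⟨r ⟨x, hx⟩, hAB (hr _)⟩, ?_, rfl⟩, add_sub_cancel _ _⟩
    exact LinearMap.mem_ker.2 (by rw [map_sub, hid ⟨r ⟨x, hx⟩, hAB (hr _)⟩ (hr _), sub_self])

theorem lat0_equiv {A C B : Submodule R W} (hd : Disjoint A C) (hs : A ⊔ C = B) :
    ∃ e : B ≃ₗ[R] (A × C), (∀ x : B, ((e x).1 : W) + (e x).2 = x) ∧
      ∀ x : B, (x : W) ∈ A ↔ (e x).2 = 0 := by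
  have hA : A ≤ B := le_sup_left.trans hs.le
  have hC : C ≤ B := le_sup_right.trans hs.le
  have hb : Function.Bijective ((Submodule.inclusion hA).coprod (Submodule.inclusion hC)) := by
    refine ⟨(injective_iff_map_eq_zero _).2 fun x hx => ?_, fun x => ?_⟩
    · have h1 : (x.1 : W) + x.2 = 0 := congrArg Subtype.val hx
      have h2 : (x.1 : W) = 0 := Submodule.disjoint_def.1 hd _ x.1.2
        (by rw [eq_neg_of_add_eq_zero_left h1]; exact neg_mem x.2.2)
      rw [h2, zero_add] at h1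
      exact Prod.ext (Subtype.ext h2) (Subtype.ext h1)
    · obtain ⟨a, ha, c, hc, h⟩ := Submodule.mem_sup.1 (hs.ge x.2)
      exact ⟨(⟨a, ha⟩, ⟨c, hc⟩), Subtype.ext h⟩
  have h1 : ∀ x : B, (((LinearEquiv.ofBijective _ hb).symm x).1 : W) +
      ((LinearEquiv.ofBijective _ hb).symm x).2 = x := fun x =>
    congrArg Subtype.val ((LinearEquiv.ofBijective _ hb).apply_symm_apply x)
  refine ⟨(LinearEquiv.ofBijective _ hb).symm, h1, fun x => ⟨fun hx => Subtype.ext ?_, fun hx => ?_⟩⟩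
  · refine Submodule.disjoint_def.1 hd _ ?_ (Subtype.prop _)
    rw [eq_sub_of_add_eq' (h1 x)]
    exact sub_mem hx (Subtype.prop _)
  · rw [← h1 x, hx, Submodule.coe_zero, add_zero]
    exact Subtype.prop _

/-- the projection onto `A` along `C`, defined on `B = A ⊔ C`. -/
theorem exists_proj {A C B : Submodule R W} (hd : Disjoint A C) (hs : A ⊔ C = B) :
    ∃ r : B →ₗ[R] W, (∀ x, r x ∈ A) ∧ (∀ x : B, (x : W) - r x ∈ C) ∧
      ∀ x : B, (x : W) ∈ A → r x = x := by
  obtain ⟨e, h1, h2⟩ := lat0_equiv hd hs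
  refine ⟨A.subtype ∘ₗ LinearMap.fst R A C ∘ₗ e.toLinearMap, fun x => (e x).1.2, fun x => ?_,
    fun x hx => ?_⟩
  · change (x : W) - (e x).1 ∈ C
    rw [← h1 x, add_sub_cancel_left]
    exact (e x).2.2
  · change ((e x).1 : W) = x
    rw [← h1 x, (h2 x).1 hx, Submodule.coe_zero, add_zero]

theorem equiv_prod_of_compl {A C B : Submodule R W} (hd : Disjoint A C) (hs : A ⊔ C = B) :
    ∃ e : B ≃ₗ[R] (A × C), ∀ x : B, (x : W) ∈ A ↔ (e x).2 = 0 := by
  obtain ⟨e, -, h⟩ := lat0_equiv hd hs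
  exact ⟨e, h⟩

theorem ret_of_spl {A B : Submodule R W} (h : Spl A B) : Ret R A B := by
  obtain ⟨hAB, C, hd, hs⟩ := h
  obtain ⟨r, h1, -, h2⟩ := exists_proj hd hs
  exact ⟨Submodule.inclusion hAB, r.codRestrict A h1, fun x => Subtype.ext (h2 _ x.2)⟩

theorem lat0_step {A Q D : Submodule R W} (h : Spl A Q) (hd : Disjoint Q D) :
    Spl (A ⊔ D) (Q ⊔ D) := by
  obtain ⟨h, C, h1, rfl⟩ := h
  exact ⟨sup_le_sup_right h _, C,
    (h1.symm.disjoint_sup_right_of_disjoint_sup_left (by rwa [sup_comm])).symm,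
    sup_right_comm _ _ _⟩

/-- `A ≤ Q`, `D ≤ C`, `N = Q ⊕ C`: restrict to get `Q = A ⊕ A'`, `C = D ⊕ D'`; complement
`A' ⊔ D'`. -/
theorem spl_sup {A D Q C N : Submodule R W} (hd : Disjoint Q C) (hs : Q ⊔ C = N) (hA : A ≤ Q)
    (hD : D ≤ C) (h1 : Spl A N) (h2 : Spl D N) : Spl (A ⊔ D) N := by
  have h3 := lat0_step (spl_restrict h2 hD (le_sup_right.trans hs.le)) hd.symm
  rw [sup_comm D, sup_comm C, hs] at h3
  exact spl_trans (lat0_step (spl_restrict h1 hA (le_sup_left.trans hs.le)) (hd.mono_right hD)) h3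

end Vale.Agent.P307M
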