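import Vale.Agent.P307M.Base

/-! Cardinalities of suprema of submodules. -/

open Cardinal

universe u

namespace Vale.Agent.P307M

variable {R : Type u} [Ring R] {W : Type u} [AddCommGroup W] [Module R W]

theorem mem_iSup_mono {ι : Type u} [LinearOrder ι] [Nonempty ι] (A : ι → Submodule R W)
    (hA : Monotone A) (x : W) : x ∈ ⨆ i, A i ↔ ∃ i, x ∈ A i := by
  exact Submodule.mem_iSup_of_directed A hA.directed_le

theorem inf_iSup_mono {ι : Type u} [LinearOrder ι] (M : Submodule R W) (A : ι → Submodule R W)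
    (hA : Monotone A) : M ⊓ ⨆ i, A i = ⨆ i, M ⊓ A i := by
  rcases isEmpty_or_nonempty ι with h | h
  · rw [iSup_of_empty, iSup_of_empty, inf_bot_eq]
  · ext x
    rw [Submodule.mem_inf, mem_iSup_mono A hA,
      mem_iSup_mono (fun i => M ⊓ A i) fun i j hij => inf_le_inf_left M (hA hij)]
    simp only [Submodule.mem_inf]
    exact ⟨fun ⟨h1, i, h2⟩ => ⟨i, h1, h2⟩, fun ⟨i, h1, h2⟩ => ⟨h1, i, h2⟩⟩

/-- the supremum of a chain is its union (or `⊥`) -/
theorem card_iSup_le {ι : Type u} [LinearOrder ι] (A : ι → Submodule R W) (hA : Monotone A)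
    {n : Cardinal.{u}} (hn : ℵ₀ ≤ n) (hι : #ι ≤ n) (h : ∀ i, #(A i) ≤ n) :
    #(⨆ i, A i : Submodule R W) ≤ n := by
  rcases isEmpty_or_nonempty ι with h0 | h0
  · rw [iSup_of_empty]
    exact (le_one_iff_subsingleton.2 inferInstance).trans (one_le_aleph0.trans hn)
  · have e : ((⨆ i, A i : Submodule R W) : Set W) = ⋃ i, (A i : Set W) :=
      Submodule.coe_iSup_of_directed A hA.directed_le
    have h1 : #(⨆ i, A i : Submodule R W) = #(⋃ i, (A i : Set W)) := by
      rw [← e]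
      rfl
    rw [h1]
    refine (mk_iUnion_le _).trans ((mul_le_mul' hι (ciSup_le' h)).trans (mul_eq_self hn).le)

theorem card_iSup_nat_le (A : ℕ → Submodule R W) (hA : Monotone A)
    {n : Cardinal.{u}} (hn : ℵ₀ ≤ n) (h : ∀ i, #(A i) ≤ n) :
    #(⨆ i, A i : Submodule R W) ≤ n := by
  have e : (⨆ i, A i : Submodule R W) = ⨆ i : ULift.{u} ℕ, A i.down :=
    (Equiv.ulift.surjective.iSup_comp A).symm
  rw [e]
  exact card_iSup_le (fun i : ULift.{u} ℕ => A i.down) (fun i j hij => hA hij) hn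
    (by simpa using hn) fun i => h _

theorem ord0_sup (A B : Submodule R W) : #(A ⊔ B : Submodule R W) ≤ #A * #B := by
  rw [mul_def]
  refine mk_le_of_surjective
    (f := fun p : A × B => ⟨p.1 + p.2, Submodule.add_mem_sup p.1.2 p.2.2⟩) ?_
  rintro ⟨x, hx⟩
  obtain ⟨a, ha, b, hb, rfl⟩ := Submodule.mem_sup.1 hx
  exact ⟨(⟨a, ha⟩, ⟨b, hb⟩), rfl⟩

/-- `A ⊔ B` is the image of `A × B` under addition -/
theorem card_sup_le (A B : Submodule R W) {n : Cardinal.{u}} (hn : ℵ₀ ≤ n) (hA : #A ≤ n)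
    (hB : #B ≤ n) : #(A ⊔ B : Submodule R W) ≤ n := by
  exact (ord0_sup A B).trans ((mul_le_mul' hA hB).trans (mul_eq_self hn).le)

theorem card_sup_lt (A B : Submodule R W) {n : Cardinal.{u}} (hn : ℵ₀ ≤ n) (hA : #A < n)
    (hB : #B < n) : #(A ⊔ B : Submodule R W) < n := by
  exact (ord0_sup A B).trans_lt (mul_lt_of_lt hn hA hB)

theorem card_mono {A B : Submodule R W} (h : A ≤ B) : #A ≤ #B := by
  exact mk_le_of_injective (Submodule.inclusion_injective h)

/-- an infinite set is the union of a chain of smaller sets (initial segments `Iic i` under a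
bijection with `n.ord.ToType`; `Cardinal.mk_Iio_toType_ord_lt`) -/
theorem set_cover {X : Type u} (J : Set X) (hJ : ℵ₀ ≤ #J) :
    ∃ S : (#J).ord.ToType → Set X, Monotone S ∧ (∀ i, #(S i) < #J) ∧ ⋃ i, S i = J := by
  obtain ⟨e⟩ := Cardinal.eq.1 (mk_ord_toType #J)
  refine ⟨fun i => (fun k => (e k : X)) '' Set.Iic i,
    fun i j hij => Set.image_mono (Set.Iic_subset_Iic.2 hij), fun i => ?_, ?_⟩
  · refine mk_image_le.trans_lt ?_
    rw [← Set.Iio_insert]
    exact mk_insert_le.trans_lt (add_one_lt_of_lt hJ (by simpa using mk_Iio_lt i))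
  · ext x
    simp only [Set.mem_iUnion, Set.mem_image, Set.mem_Iic]
    refine ⟨?_, fun hx => ⟨e.symm ⟨x, hx⟩, e.symm ⟨x, hx⟩, le_rfl, by simp⟩⟩
    rintro ⟨i, k, -, rfl⟩
    exact (e k).2

theorem nonempty_ord_toType {n : Cardinal.{u}} (hn : ℵ₀ ≤ n) : Nonempty n.ord.ToType := by
  rw [← mk_ne_zero_iff, mk_ord_toType]
  exact (aleph0_pos.trans_le hn).ne'

end Vale.Agent.P307M
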