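import Vale.Agent.P307M.Ord0

/-! Two transfinite recursions. -/

open Cardinal

universe u

namespace Vale.Agent.P307M

variable {R : Type u} [Ring R] {W : Type u} [AddCommGroup W] [Module R W]

theorem ord1_rec {ι X : Type u} [LinearOrder ι] [WellFoundedLT ι]
    (F : ∀ i : ι, (Set.Iio i → X) → X) : ∃ A : ι → X, ∀ i, A i = F i fun j => A j :=
  ⟨WellFounded.fix wellFounded_lt fun i r => F i fun j => r j.1 j.2,
    fun i => WellFounded.fix_eq _ _ i⟩

/-- Covering a set by a chain of small good submodules. Enumerate `s ∪ {0}` by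
`x : n.ord.ToType → W`; by well-founded recursion `A i` = a good submodule containing `x i` and
all `A j`, `j < i`; invariant `#(A i) ≤ max #(Iio i) m`. (A clean way: `WellFounded.fix` with a
total choice function `ext : Set W → Submodule R W`.) -/
theorem rec_cover (Good : Submodule R W → Prop) (N : Submodule R W) (s : Set W) (hs : s ⊆ N)
    {m n : Cardinal.{u}} (hm : ℵ₀ ≤ m) (hmn : m < n) (hsn : #s ≤ n)
    (ext : ∀ t : Set W, t ⊆ N → #t < n →
      ∃ A : Submodule R W, Good A ∧ t ⊆ A ∧ A ≤ N ∧ #A ≤ max #t m) :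
    ∃ A : n.ord.ToType → Submodule R W, Monotone A ∧
      (∀ i, Good (A i) ∧ A i ≤ N ∧ #(A i) < n) ∧ s ⊆ (⨆ i, A i : Submodule R W) := by
  classical
  obtain ⟨e⟩ : Nonempty (s ↪ n.ord.ToType) := by
    rw [← Cardinal.le_def, mk_ord_toType]
    exact hsn
  let x : n.ord.ToType → W := Function.extend e Subtype.val fun _ => 0
  have hx : ∀ a : s, x (e a) = a := fun a => e.injective.extend_apply _ _ a
  have hxN : ∀ i, x i ∈ N := fun i => by
    by_cases h : ∃ a, e a = i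
    · obtain ⟨a, rfl⟩ := h
      rw [hx]
      exact hs a.2
    · rw [show x i = 0 from Function.extend_apply' _ _ _ h]
      exact N.zero_mem
  choose! E hE using ext
  obtain ⟨A, hA⟩ := ord1_rec (ι := n.ord.ToType) (X := Submodule R W)
    fun i r => E (insert (x i) (⋃ j : Set.Iio i, (r j : Set W)))
  have hlt : ∀ i : n.ord.ToType, max #(Set.Iio i) m < n := fun i =>
    max_lt (mk_Iio_toType_ord_lt i) hmn
  have key : ∀ i, insert (x i) (⋃ j : Set.Iio i, (A j : Set W)) ⊆ N ∧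
      #(insert (x i) (⋃ j : Set.Iio i, (A j : Set W)) : Set W) ≤ max #(Set.Iio i) m := by
    intro i
    induction i using WellFoundedLT.induction with
    | ind i ih =>
      have h1 : ∀ j : Set.Iio i, A j ≤ N ∧ #(A j) ≤ max #(Set.Iio i) m := fun j => by
        obtain ⟨a1, a2⟩ := ih j j.2
        obtain ⟨-, -, b1, b2⟩ := hE _ a1 (a2.trans_lt (hlt j))
        rw [← hA] at b1 b2
        refine ⟨b1, b2.trans (max_le (a2.trans (max_le_max ?_ le_rfl)) (le_max_right _ _))⟩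
        exact mk_le_mk_of_subset (Set.Iio_subset_Iio j.2.le)
      have hc : ℵ₀ ≤ max #(Set.Iio i) m := hm.trans (le_max_right _ _)
      refine ⟨Set.insert_subset (hxN i) (Set.iUnion_subset fun j => (h1 j).1), ?_⟩
      refine mk_insert_le.trans (add_le_of_le hc ((mk_iUnion_le _).trans ?_) (one_le_aleph0.trans hc))
      exact (mul_le_mul' (le_max_left _ m) (ciSup_le' fun j => (h1 j).2)).trans_eq (mul_eq_self hc)
  have h2 : ∀ i, Good (A i) ∧ insert (x i) (⋃ j : Set.Iio i, (A j : Set W)) ⊆ A i ∧ A i ≤ N ∧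
      #(A i) < n := fun i => by
    obtain ⟨a1, a2⟩ := key i
    obtain ⟨b0, b1, b2, b3⟩ := hE _ a1 (a2.trans_lt (hlt i))
    rw [← hA] at b0 b1 b2 b3
    exact ⟨b0, b1, b2, b3.trans_lt (max_lt (a2.trans_lt (hlt i)) hmn)⟩
  refine ⟨A, monotone_iff_forall_lt.2 fun j i hji y hy => ?_,
    fun i => ⟨(h2 i).1, (h2 i).2.2⟩, fun a ha => ?_⟩
  · exact (h2 i).2.1 (Set.mem_insert_of_mem _ (Set.mem_iUnion.2 ⟨⟨j, hji⟩, hy⟩))
  · have h3 : x (e ⟨a, ha⟩) ∈ A (e ⟨a, ha⟩) := (h2 _).2.1 (Set.mem_insert _ _)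
    rw [hx] at h3
    exact le_iSup A _ h3

/-- A chain of length `n⁺` with a bad step at every index that has a predecessor.
`Q i := step (A0 ⊔ ⨆ j < i, Q j)` by well-founded recursion (`step` a total choice function);
prove by strong induction on `i`: `Good (Q i)`, `Le A0 (Q i)`, `∀ j ≤ i, Le (Q j) (Q i)`.
If `i` has a predecessor then `A0 ⊔ ⨆ j < i, Q j = ⨆ j < i, Q j` and `#(Iio i) ≤ n`. -/
theorem rec_long {n : Cardinal.{u}} (hn : ℵ₀ ≤ n) (Good : Submodule R W → Prop)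
    (Le Bad : Submodule R W → Submodule R W → Prop) (A0 : Submodule R W) (h0 : Good A0)
    (le_of : ∀ A B, Le A B → A ≤ B) (le_refl' : ∀ A, Good A → Le A A)
    (le_trans' : ∀ A B C, Le A B → Le B C → Le A C)
    (step : ∀ A, Good A → ∃ B, Good B ∧ Le A B ∧ Bad A B)
    (chain : ∀ (ι : Type u) [LinearOrder ι] [WellFoundedLT ι] [Nonempty ι]
      (A : ι → Submodule R W), #ι ≤ n → (∀ i, Good (A i)) → (∀ i j, i ≤ j → Le (A i) (A j)) →
      Good (⨆ i, A i) ∧ ∀ i, Le (A i) (⨆ i, A i)) :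
    ∃ Q : (Order.succ n).ord.ToType → Submodule R W, (∀ i, Good (Q i)) ∧ (∀ i, Le A0 (Q i)) ∧
      (∀ i j, i ≤ j → Le (Q i) (Q j)) ∧
      ∀ i, (∃ j, j < i) → Good (⨆ j : Set.Iio i, Q j) ∧ Le (⨆ j : Set.Iio i, Q j) (Q i) ∧
        Bad (⨆ j : Set.Iio i, Q j) (Q i) := by
  choose! S hS using step
  obtain ⟨Q, hQ⟩ := ord1_rec (ι := (Order.succ n).ord.ToType) (X := Submodule R W)
    fun i r => S (A0 ⊔ ⨆ j : Set.Iio i, r j)
  have key : ∀ i, (Good (Q i) ∧ Le A0 (Q i) ∧ ∀ j, j ≤ i → Le (Q j) (Q i)) ∧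
      ((∃ j, j < i) → Good (⨆ j : Set.Iio i, Q j) ∧ Le (⨆ j : Set.Iio i, Q j) (Q i) ∧
        Bad (⨆ j : Set.Iio i, Q j) (Q i)) := by
    intro i
    induction i using WellFoundedLT.induction with
    | ind i ih =>
      by_cases h : ∃ j, j < i
      · obtain ⟨j0, hj0⟩ := h
        haveI : Nonempty (Set.Iio i) := ⟨⟨j0, hj0⟩⟩
        obtain ⟨c1, c2⟩ := chain (Set.Iio i) (fun j => Q j)
          (Order.lt_succ_iff.1 (mk_Iio_toType_ord_lt i)) (fun j => (ih j j.2).1.1)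
          fun j k hjk => (ih k k.2).1.2.2 j hjk
        have c3 : Le A0 (⨆ j : Set.Iio i, Q j) :=
          le_trans' _ _ _ (ih j0 hj0).1.2.1 (c2 ⟨j0, hj0⟩)
        have e : Q i = S (⨆ j : Set.Iio i, Q j) := by
          rw [hQ i, sup_eq_right.2 (le_of _ _ c3)]
        obtain ⟨d1, d2, d3⟩ := hS _ c1
        rw [← e] at d1 d2 d3
        refine ⟨⟨d1, le_trans' _ _ _ c3 d2, fun j hj => ?_⟩, fun _ => ⟨c1, d2, d3⟩⟩
        rcases hj.eq_or_lt with rfl | hj
        · exact le_refl' _ d1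
        · exact le_trans' _ _ _ (c2 ⟨j, hj⟩) d2
      · haveI : IsEmpty (Set.Iio i) := ⟨fun j => h ⟨j, j.2⟩⟩
        have e : Q i = S A0 := by rw [hQ i, iSup_of_empty, sup_bot_eq]
        obtain ⟨d1, d2, -⟩ := hS _ h0
        rw [← e] at d1 d2
        refine ⟨⟨d1, d2, fun j hj => ?_⟩, fun h' => (h h').elim⟩
        rcases hj.eq_or_lt with rfl | hj
        · exact le_refl' _ d1
        · exact (h ⟨j, hj⟩).elim
  exact ⟨Q, fun i => (key i).1.1, fun i => (key i).1.2.1, fun i j hij => (key j).1.2.2 i hij,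
    fun i => (key i).2⟩

end Vale.Agent.P307M
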