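import Vale.Agent.P307M.Base

/-! Retracts of direct sums of copies of a module: basic lemmas. -/

open Cardinal

universe u

namespace Vale.Agent.P307M

variable {R : Type u} [Ring R] {M N D P : Type u} [AddCommGroup M] [Module R M]
  [AddCommGroup N] [Module R N] [AddCommGroup D] [Module R D] [AddCommGroup P] [Module R P]

theorem ret_refl : Ret R M M :=
  ⟨LinearMap.id, LinearMap.id, fun _ => rfl⟩

theorem Ret.trans (h1 : Ret R M N) (h2 : Ret R N D) : Ret R M D := by
  obtain ⟨i, p, h⟩ := h1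
  obtain ⟨j, q, h'⟩ := h2
  exact ⟨j.comp i, p.comp q, fun x => by rw [LinearMap.comp_apply, LinearMap.comp_apply, h', h]⟩

theorem ret_of_equiv (e : M ≃ₗ[R] N) : Ret R M N :=
  ⟨e.toLinearMap, e.symm.toLinearMap, e.symm_apply_apply⟩

theorem Ret.card_le (h : Ret R M N) : #M ≤ #N := by
  obtain ⟨i, p, h⟩ := h
  exact mk_le_of_injective (Function.LeftInverse.injective h)

theorem ret_fst : Ret R M (M × N) :=
  ⟨LinearMap.inl R M N, LinearMap.fst R M N, fun _ => rfl⟩

theorem ret_snd : Ret R N (M × N) :=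
  ⟨LinearMap.inr R M N, LinearMap.snd R M N, fun _ => rfl⟩

/-- `N ≃ M × ker p`. -/
theorem Ret.exists_compl (h : Ret R M N) :
    ∃ C : Submodule R N, Nonempty (N ≃ₗ[R] (M × C)) := by
  obtain ⟨i, p, h⟩ := h
  have hm : ∀ y : N, (LinearMap.id - i.comp p : N →ₗ[R] N) y ∈ LinearMap.ker p := fun y => by
    rw [LinearMap.mem_ker, LinearMap.sub_apply, map_sub, LinearMap.comp_apply, h,
      LinearMap.id_apply, sub_self]
  refine ⟨LinearMap.ker p, ⟨LinearEquiv.ofLinearMap
    (p.prod ((LinearMap.id - i.comp p : N →ₗ[R] N).codRestrict _ hm))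
    (i.coprod (LinearMap.ker p).subtype) (LinearMap.ext fun y => ?_) (LinearMap.ext fun y => ?_)⟩⟩
  · have h0 : p y.2 = 0 := y.2.2
    refine Prod.ext ?_ (Subtype.ext ?_)
    · show p (i y.1 + y.2) = y.1
      rw [map_add, h, h0, add_zero]
    · show i y.1 + y.2 - i (p (i y.1 + y.2)) = y.2
      rw [map_add, h, h0, add_zero, add_sub_cancel_left]
  · exact add_sub_cancel (i (p y)) y

/-- `Finsupp.lmapDomain` and `Finsupp.lcomapDomain`. -/
theorem ret_finsupp_of_embedding {X Y : Type u} (e : X ↪ Y) : Ret R (X →₀ P) (Y →₀ P) :=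
  ⟨Finsupp.lmapDomain P R e, Finsupp.lcomapDomain e e.injective, fun x =>
    Finsupp.ext fun a => Finsupp.mapDomain_apply e.injective x a⟩

theorem ret_finsupp_of_card_le {X Y : Type u} (h : #X ≤ #Y) : Ret R (X →₀ P) (Y →₀ P) :=
  (Cardinal.le_def X Y).1 h |>.elim ret_finsupp_of_embedding

/-- `Finsupp.mapRange.linearMap`. -/
theorem Ret.finsupp (h : Ret R M N) (I : Type u) : Ret R (I →₀ M) (I →₀ N) := by
  obtain ⟨i, p, h⟩ := h
  exact ⟨Finsupp.mapRange.linearMap i, Finsupp.mapRange.linearMap p,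
    fun x => Finsupp.ext fun a => h (x a)⟩

/-- `Finsupp.curryLinearEquiv` (or `Finsupp.finsuppProdLEquiv`). -/
theorem finsupp_finsupp_equiv (I L : Type u) :
    Nonempty ((I →₀ (L →₀ P)) ≃ₗ[R] (I × L →₀ P)) :=
  ⟨(Finsupp.curryLinearEquiv R).symm⟩

theorem finsupp_equiv_of_card_eq {X Y : Type u} (h : #X = #Y) :
    Nonempty ((X →₀ P) ≃ₗ[R] (Y →₀ P)) :=
  (Cardinal.eq.1 h).map fun e => Finsupp.domLCongr e

theorem card_finsupp_le {X : Type u} {n : Cardinal.{u}} (hn : ℵ₀ ≤ n) (hX : #X ≤ n)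
    (hP : #P ≤ n) : #(X →₀ P) ≤ n := by
  cases finite_or_infinite X
  · have := Fintype.ofFinite X
    rw [mk_finsupp_of_fintype]
    exact (power_nat_le_max).trans (max_le hP hn)
  · cases subsingleton_or_nontrivial P
    · exact (le_one_iff_subsingleton.2 inferInstance).trans (one_le_aleph0.trans hn)
    · rw [mk_finsupp_of_infinite]
      exact max_le hX hP

theorem card_finsupp_eq {X : Type u} (hnt : Nontrivial P) (hX : ℵ₀ ≤ #X) (hP : #P ≤ #X) :
    #(X →₀ P) = #X := by
  have := infinite_iff.2 hX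
  rw [mk_finsupp_of_infinite]
  exact max_eq_left hP

theorem card_supported_le {X : Type u} (I : Set X) {n : Cardinal.{u}} (hn : ℵ₀ ≤ n)
    (hI : #I ≤ n) (hP : #P ≤ n) : #(Finsupp.supported P R I) ≤ n := by
  rw [(Finsupp.supportedEquivFinsupp (M := P) (R := R) I).toEquiv.cardinal_eq]
  exact card_finsupp_le hn hI hP

/-- a small set of finitely supported functions has a small total support -/
theorem exists_support_set {X : Type u} (s : Set (X →₀ P)) {n : Cardinal.{u}} (hn : ℵ₀ ≤ n)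
    (hs : #s ≤ n) : ∃ I : Set X, #I ≤ n ∧ s ⊆ Finsupp.supported P R I := by
  refine ⟨⋃ f : s, (f.1.support : Set X), (mk_iUnion_le _).trans ?_, fun f hf =>
    (Finsupp.mem_supported R f).2 (Set.subset_iUnion (fun f : s => (f.1.support : Set X)) ⟨f, hf⟩)⟩
  refine (mul_le_mul' hs (ciSup_le' fun f => ?_)).trans_eq (mul_eq_self hn)
  exact (f.1.support.finite_toSet.lt_aleph0).le.trans hn

end Vale.Agent.P307M
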