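import Vale.Agent.P307M.Std0

/-! Split inclusions between direct sums of copies of `P` are strong. -/

open Cardinal

universe u

namespace Vale.Agent.P307M

variable {R : Type u} [Ring R] {K : ModAEC R} {l : Cardinal.{u}} {P : Type u} [AddCommGroup P]
  [Module R P]

variable {W : Type u} [AddCommGroup W] [Module R W]

/-- `B ≃ A × C ≃ (Y ⊕ Z →₀ P)` carrying `A` onto `supported (range Sum.inl)`
(`equiv_prod_of_compl`, `Finsupp.sumFinsuppLEquivProdFinsupp`); `supported univ = ⊤`;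
`str_top_iff`, `K.strong_iso`. -/
theorem str_of_compl (hl : K.LSBound l) (hs : K.SumClosed) (hP : K.Mem P) (hc : #P ≤ l)
    {A C B : Submodule R W} (hd : Disjoint A C) (hsup : A ⊔ C = B) {Y Z : Type u}
    (hY : l ≤ #Y) (eA : A ≃ₗ[R] (Y →₀ P)) (eC : C ≃ₗ[R] (Z →₀ P)) : Str K A B := by
  obtain ⟨e, he⟩ := equiv_prod_of_compl hd hsup
  let f : B ≃ₗ[R] (Y ⊕ Z →₀ P) :=
    (e.trans (eA.prodCongr eC)).trans (Finsupp.sumFinsuppLEquivProdFinsupp R).symm
  have h1 : l ≤ #(Set.range (Sum.inl : Y → Y ⊕ Z)) := by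
    rwa [mk_range_eq _ Sum.inl_injective]
  have h2 := str_supported hl hs hP hc _ Set.univ h1 (Set.subset_univ _)
  rw [Finsupp.supported_univ, str_top_iff] at h2
  have h3 := K.strong_iso _ _ f.symm _ h2
  refine ⟨le_sup_left.trans hsup.le, ?_⟩
  have h4 : (Finsupp.supported P R (Set.range (Sum.inl : Y → Y ⊕ Z))).map f.symm.toLinearMap =
      A.comap B.subtype := by
    ext x
    rw [Submodule.mem_map_equiv, LinearEquiv.symm_symm, Finsupp.mem_supported', Submodule.mem_comap,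
      Submodule.subtype_apply, he, ← eC.map_eq_zero_iff]
    have h5 : ∀ z, f x (Sum.inr z) = eC (e x).2 z := fun z => rfl
    constructor
    · intro h
      ext z
      rw [← h5]
      exact h _ (by simp)
    · rintro h (y | z) hy
      · exact absurd ⟨y, rfl⟩ hy
      · rw [h5, h]
        rfl
  rwa [h4] at h3

/-- In the ambient `W × (Z →₀ P)` let `B⁺ = B.prod ⊤`. `B.map inl` has the complement
`⊥.prod ⊤ ≃ (Z →₀ P)`; `A.map inl` has the complement `C.prod ⊤ ≃ C × (Z →₀ P) ≃ (Z →₀ P)`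
(`swindle`: `C` is a retract of `B`). `str_of_compl` twice, `Str.coh`, `str_map_iff`. -/
theorem str_of_spl (hl : K.LSBound l) (hs : K.SumClosed) (hP : K.Mem P) (hc : #P ≤ l)
    {A B : Submodule R W} (h : Spl A B) {Y Z : Type u} (hY : l ≤ #Y) (hZ : l ≤ #Z)
    (eA : A ≃ₗ[R] (Y →₀ P)) (eB : B ≃ₗ[R] (Z →₀ P)) : Str K A B := by
  obtain ⟨hAB, C, hd, hsup⟩ := h
  have hinf : ℵ₀ ≤ #Z := (le_trans (self_le_add_left _ _) hl.1).trans hZ
  obtain ⟨e1⟩ := swindle hinf ((ret_of_spl (spl_of_compl hd hsup)).trans (ret_of_equiv eB))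
  have hi : Function.Injective (LinearMap.inl R W (Z →₀ P)) := LinearMap.inl_injective
  have key : ∀ A C : Submodule R W, Disjoint A C →
      Disjoint (A.map (LinearMap.inl R W (Z →₀ P))) (C.prod ⊤) ∧
        A.map (LinearMap.inl R W (Z →₀ P)) ⊔ C.prod ⊤ = (A ⊔ C).prod ⊤ := by
    intro A C h
    rw [Submodule.map_inl]
    refine ⟨?_, by rw [Submodule.prod_sup_prod, bot_sup_eq]⟩
    rw [disjoint_iff, Submodule.prod_inf_prod, h.eq_bot, bot_inf_eq, Submodule.prod_bot]
  have e2 : ∀ C : Submodule R W, Nonempty ((C.prod (⊤ : Submodule R (Z →₀ P))) ≃ₗ[R]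
      (C × (Z →₀ P))) := fun C =>
    ⟨{ toFun := fun x => (⟨x.1.1, x.2.1⟩, x.1.2)
       invFun := fun y => ⟨(y.1, y.2), y.1.2, trivial⟩
       map_add' := fun _ _ => rfl
       map_smul' := fun _ _ => rfl
       left_inv := fun _ => rfl
       right_inv := fun _ => rfl }⟩
  obtain ⟨e3⟩ := e2 C
  obtain ⟨e4⟩ := e2 ⊥
  obtain ⟨k1, k2⟩ := key A C hd
  obtain ⟨k3, k4⟩ := key B ⊥ disjoint_bot_right
  rw [hsup] at k2
  rw [sup_bot_eq] at k4
  have h1 := str_of_compl hl hs hP hc k1 k2 hY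
    ((Submodule.equivMapOfInjective _ hi A).symm.trans eA) (e3.trans e1)
  have h2 := str_of_compl hl hs hP hc k3 k4 hZ
    ((Submodule.equivMapOfInjective _ hi B).symm.trans eB)
    (e4.trans (LinearEquiv.uniqueProd (R := R)))
  exact (str_map_iff _ hi A B).1 (h1.coh h2 (Submodule.map_mono hAB))

end Vale.Agent.P307M
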