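import Vale.Agent.P307M.Api
import Vale.Agent.P307M.Lat
import Vale.Agent.P307M.Ret

/-! Standard inclusions between direct sums of copies of `P` are strong. -/

open Cardinal

universe u

namespace Vale.Agent.P307M

variable {R : Type u} [Ring R] {K : ModAEC R} {l : Cardinal.{u}} {P : Type u} [AddCommGroup P]
  [Module R P]

/-- `exists_omega_chain` in `⊤` (a model by `mem_finsupp`, `mem_top_iff`) with `n = #I`,
`s = supported I`, `g A = supported (a support set of A)`; the union is `supported I₀` with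
`I₀ = I ∪ ⋃ support sets`; `str_nat_smooth`. -/
theorem exists_str_supported (hl : K.LSBound l) (hs : K.SumClosed) (hP : K.Mem P) (hc : #P ≤ l)
    {X : Type u} (I : Set X) (hI : l ≤ #I) :
    ∃ I₀ : Set X, I ⊆ I₀ ∧ #I₀ = #I ∧ Str K (Finsupp.supported P R I₀) ⊤ := by
  have hn : ℵ₀ ≤ #I := (le_trans (self_le_add_left _ _) hl.1).trans hI
  have : Infinite I := Cardinal.aleph0_le_mk_iff.1 hn
  have : Nonempty X := ⟨(Classical.arbitrary I).1⟩
  have h1 : ∀ A : Submodule R (X →₀ P), ∃ J : Set X, #A ≤ #I →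
      #J ≤ #I ∧ (A : Set (X →₀ P)) ⊆ Finsupp.supported P R J := fun A => by
    by_cases h : #A ≤ #I
    · obtain ⟨J, hJ⟩ := exists_support_set (R := R) (A : Set (X →₀ P)) hn h
      exact ⟨J, fun _ => hJ⟩
    · exact ⟨∅, fun h' => absurd h' h⟩
  choose σ hσ using h1
  obtain ⟨A, hA, h0, h2⟩ := exists_omega_chain hl hI (mem_top_iff.2 (mem_finsupp hs hP X))
    (fun A => Finsupp.supported P R (σ A))
    (fun A _ h => ⟨fun _ _ => trivial, card_supported_le _ hn (hσ A h).1 (hc.trans hI)⟩)
    (Finsupp.supported P R I) (fun _ _ => trivial) (card_supported_le _ hn le_rfl (hc.trans hI))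
  refine ⟨I ∪ ⋃ i : ULift.{u} ℕ, σ (A i.down), Set.subset_union_left,
    le_antisymm ?_ (mk_le_mk_of_subset Set.subset_union_left), ?_⟩
  · refine (mk_union_le _ _).trans (add_le_of_le hn le_rfl ((mk_iUnion_le _).trans ?_))
    exact mul_le_of_le hn (by simpa using hn) (ciSup_le' fun i => (hσ _ (h2 i.down).2.1).1)
  · have e : Finsupp.supported P R (I ∪ ⋃ i : ULift.{u} ℕ, σ (A i.down)) = ⨆ i, A i := by
      refine le_antisymm ?_ (iSup_le fun i => ?_)
      · rw [Finsupp.supported_union, Finsupp.supported_iUnion]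
        exact sup_le (le_trans h0 (le_iSup A 0))
          (iSup_le fun i => le_trans (h2 i.down).2.2 (le_iSup A (i.down + 1)))
      · exact le_trans (hσ _ (h2 i).2.1).2 (Finsupp.supported_mono
          ((Set.subset_iUnion (fun i : ULift.{u} ℕ => σ (A i.down)) ⟨i⟩).trans
            Set.subset_union_right))
    rw [e]
    exact str_nat_smooth A hA fun i => (h2 i).1

theorem std0_map {X Y : Type u} {f : X → Y} (hf : Function.Injective f) (I J : Set X) :
    Str K (Finsupp.supported P R (f '' I)) (Finsupp.supported P R (f '' J)) ↔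
      Str K (Finsupp.supported P R I) (Finsupp.supported P R J) := by
  rw [← Finsupp.lmapDomain_supported, ← Finsupp.lmapDomain_supported]
  exact str_map_iff _ (Finsupp.mapDomain_injective hf) _ _

/-- a permutation of `X` carrying `I₀` onto `I` (both complements have size `#X`:
`Cardinal.mk_compl_of_infinite`; `Equiv.sumCompl`, or `Cardinal.extend_function_of_lt`), then
`str_map_iff` with `Finsupp.domLCongr` / `lmapDomain` (`Finsupp.lmapDomain_supported`). -/
theorem str_supported_top (hl : K.LSBound l) (hs : K.SumClosed) (hP : K.Mem P) (hc : #P ≤ l)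
    {X : Type u} (I : Set X) (hI : l ≤ #I) (hX : #I < #X) :
    Str K (Finsupp.supported P R I) ⊤ := by
  obtain ⟨I₀, -, h1, h2⟩ := exists_str_supported hl hs hP hc I hI
  obtain ⟨e⟩ := Cardinal.eq.1 h1
  obtain ⟨g, hg⟩ := Cardinal.extend_function_of_lt
    (e.toEmbedding.trans (Function.Embedding.subtype _)) (h1.trans_lt hX) ⟨Equiv.refl X⟩
  have h3 : g '' I₀ = I := by
    ext y
    constructor
    · rintro ⟨x, hx, rfl⟩
      rw [hg ⟨x, hx⟩]
      exact (e ⟨x, hx⟩).2
    · intro hy
      refine ⟨e.symm ⟨y, hy⟩, (e.symm ⟨y, hy⟩).2, ?_⟩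
      rw [hg]
      exact congrArg Subtype.val (e.apply_symm_apply ⟨y, hy⟩)
  rw [← Finsupp.supported_univ] at h2 ⊢
  have h4 := (std0_map g.injective I₀ Set.univ).2 h2
  rwa [h3, Set.image_univ_of_surjective g.surjective] at h4

/-- embed `X` into `X' = X ⊕ Set X`, use `str_supported_top` twice, `Str.coh`, and pull back along
`lmapDomain Sum.inl` with `str_map_iff`. -/
theorem str_supported (hl : K.LSBound l) (hs : K.SumClosed) (hP : K.Mem P) (hc : #P ≤ l)
    {X : Type u} (I J : Set X) (hI : l ≤ #I) (hIJ : I ⊆ J) :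
    Str K (Finsupp.supported P R I) (Finsupp.supported P R J) := by
  have hf : Function.Injective (Sum.inl : X → X ⊕ Set X) := Sum.inl_injective
  have h1 : ∀ L : Set X, l ≤ #L →
      Str K (Finsupp.supported P R (Sum.inl '' L : Set (X ⊕ Set X))) ⊤ := fun L hL => by
    have h2 : #(Sum.inl '' L : Set (X ⊕ Set X)) = #L := mk_image_eq hf
    refine str_supported_top hl hs hP hc _ (hL.trans h2.ge) (h2.trans_lt ?_)
    refine ((mk_set_le L).trans_lt (cantor _)).trans_le ?_
    rw [← mk_set]
    exact mk_le_of_injective Sum.inr_injective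
  exact (std0_map hf I J).1 ((h1 I hI).coh (h1 J (hI.trans (mk_le_mk_of_subset hIJ)))
    (Finsupp.supported_mono (Set.image_mono hIJ)))

variable {W : Type u} [AddCommGroup W] [Module R W]

end Vale.Agent.P307M
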